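import Crest.Agent.N49.Su.Defs
import Crest.Agent.N49.Sw.Df3

/-!
# Row 49 (helper97): the substitution step (FROZEN definitions and leaves)
-/

set_option autoImplicit false

open Matrix MvPolynomial Finset

noncomputable section

namespace Crest.Agent.N49.Su

open Po Tw Sd Sw

/-- a substitution in a form with brackets -/
def sbq {C σ τ : Type} [Fintype σ] [DecidableEq σ] [DecidableEq τ] (B : Bk (VV C σ) σ)
    (col : τ → σ) (W : Finset (τ →₀ ℕ)) (φ : τ → σ → ℤ) (P : MvPolynomial (VV C σ ⊕ B.N) ℝ) :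
    MvPolynomial (VV C τ ⊕ (sp B col W).N) ℝ :=
  aeval (Sum.elim (fun v => ∑ μ ∈ W, (smat φ v.2 μ : ℝ) • X (.inl (v.1, μ))) fun a =>
    ∑ x : (sp B col W).N with x.1.1 = a, (smat φ (B.wd a) x.1.2.1 : ℝ) • X (.inr x)) P

/-- the identity permutation -/
def g1 {σ : Type} [Fintype σ] [DecidableEq σ] (E : Finset σ) : GE E := ⟨1, by simp [GE]⟩

section cfg
variable {σ τ : Type} [Fintype σ] [DecidableEq σ] [DecidableEq τ] (s : ℕ) (T : TS Unit)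
  (B : Bk (VV T.C σ) σ) (w : ℝ) (col : τ → σ) (W : Finset (τ →₀ ℕ)) (K : Kn τ)

/-- the tower with all the relabelled brackets -/
abbrev UA : TS σ := cE s T (sy B univ) w

/-- the values of the brackets that are not relabelled -/
def kq (y : (UA s T B w).Cw (MR col W K) → ℤ) (x : (sp B col W).N) : ℤ :=
  ex _ _ (fm s T _ w) y (.inr (syn B univ (g1 univ) x.1.1), x.1.2.1)

/-- the old words and the diagonal words -/
def yq (y : (UA s T B w).Cw (MR col W K) → ℤ) (v : VV (T.C ⊕ B.N) τ) : ℤ :=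
  v.1.elim (fun F => ex _ _ (fm s T _ w) y (.inl F, v.2)) fun a =>
    ∑ x : (sy B univ).N with x.1.1 = a, ex _ _ (fm s T _ w) y (.inr x, v.2)

end cfg

namespace Gq

variable {σ I κ : Type} [Fintype σ] [DecidableEq σ] [Fintype κ] [DecidableEq κ] {l : ℕ}
  (q : Gq σ I κ l) (s : ℕ)

/-- the differences; the unmarked old letters go to zero -/
def r2 : σ ⊕ κ × Bool → σ → ℤ := Sum.elim (fun a => if a = q.x then Pi.single a 1 else 0)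
  fun h => if h.2 then -Pi.single (q.kp h.1) 1 else Pi.single (q.kp h.1) 1

/-- the letters of the word `j` -/
def E (j : I) : Finset σ := (q.w (q.ec j)).support

variable (T : TS Unit) (B : Bk (VV T.C σ) σ)

/-- the brackets and the forms -/
structure Ty (P : I → MvPolynomial (VV T.C σ ⊕ B.N) ℝ) : Prop where
  sq : ∀ μ ∈ q.W, ∀ t, μ t ≤ 1
  bo : Bo B
  wd : ∀ a, B.wd a ∈ q.W ∧ B.wd a q.x = 0
  hom : ∀ j, (P j).IsWeightedHomogeneous (B.wg Prod.snd) (q.w (q.ec j))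
  live : ∀ j v, Sum.inl v ∈ (P j).vars → v.2 ≠ 0

/-- the symmetrised relation -/
def Gs (w : ℝ) (K : Kn (σ ⊕ κ × Bool)) (k : (sp B q.cl (q.W' s)).N → ℤ) (j : I)
    (P : MvPolynomial (VV T.C σ ⊕ B.N) ℝ)
    (ξ : (bar T B w).Cw (MR (fun _ => ()) (q.W' s) K) → ℝ) : ℝ :=
  (l + 1).factorial * eval (Sum.elim (fun v => ex _ _ id ξ (.inl v.1, v.2)) fun x => (k x : ℝ))
      (sbq B q.cl (q.W' s) q.r2 P) -
    sv (dgl T B P) (q.w (q.ec j)) (sbv q.r2 (q.W' s) (ex _ _ id ξ))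

/-- **the output at a configuration `y` of the big ring** -/
structure Oq (P : I → MvPolynomial (VV T.C σ ⊕ B.N) ℝ) (w κ0 b R : ℝ) (K0 : Kn σ)
    (H : Set (T.Cw (MR (fun _ => ()) q.W K0) → ℤ)) (K : Kn (σ ⊕ κ × Bool))
    (o : (sp B q.cl (q.W' s)).N → ℝ) (y : T.Cw (MR (fun _ => ()) (q.W' s) K) → ℤ)
    (k : (sp B q.cl (q.W' s)).N → ℤ) (Y : VV (T.C ⊕ B.N) (σ ⊕ κ × Bool) → ℤ) : Prop where
  pt : hs T _ (q.r0 fun _ => false) y ∈ H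
  om : ∀ a, B.om (ex T (MR (fun _ => ()) q.W K0) id (zc (hs T _ (q.r0 fun _ => false) y))) a =
    ∑ x with x.1.1 = a, smat (q.r0 fun _ => false) (B.wd a) x.1.2.1 * k x
  cell : ∀ x, |eval (Sum.elim (ex T _ id (zc y)) fun x => (k x : ℝ)) ((sp B q.cl (q.W' s)).Θ x) -
    o x - k x| ≤ 1
  old : ∀ F μ, Y (.inl F, μ) = ex T _ id y (F, μ)
  deg : ∀ c μ, Y (c, μ) ≠ 0 → μ ∈ q.W' s ∧ μ.degree = (bar T B w).lev c
  err : ∀ a, ∀ μ ∈ q.W' s, μ (.inl q.x) = 0 → μ.degree = (B.wd a).degree →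
    |Y (.inr a, μ) - sv (dgl T B (B.Θ a)) μ fun v => (Y v : ℝ)| ≤ R
  rel : ∀ j, Rx ((bar T B w).sh (MR (fun _ => ()) (q.W' s) (dk (q.kf κ0 b))))
    (fun p => p.1.2.1 (.inl q.x) ≠ 0) (fun p => (Y (p.1.1, p.1.2.1) : ℝ)) R
    (q.Gs s T B w _ k j (P j))

/-- the biases of the star transpositions -/
def Bi (P : I → MvPolynomial (VV T.C σ ⊕ B.N) ℝ) (w κ0 : ℝ) (m : ℕ) : Prop :=
  ∀ j (π : GE (q.E j)), ∀ t ∈ q.E j, t ≠ q.x → π.1 = Equiv.swap t q.x →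
    1 / 2 ^ m ≤ bi (cE s T (sy B (q.E j)) w) (MR id (W0 s (q.E j)) (dk fun _ => κ0)) (fm s T _ w)
      (ug B (q.E j) (g1 _) (P j) - ug B (q.E j) π (P j))

end Gq

/-- leaf: the words of the sections -/
def EWQ : Prop := ∀ (σ I κ : Type) [Fintype σ] [DecidableEq σ] [Fintype I] [DecidableEq I]
  [Fintype κ] [DecidableEq κ] (l s : ℕ) (q : Gq σ I κ l) (j : I), q.Ok s →
  wE (q.E j) = q.w (q.ec j) ∧ #(q.E j) = l + 1 ∧ l + 1 ≤ s ∧ q.x ∈ q.E j ∧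
  Fintype.card (GE (q.E j)) ≤ s.factorial ∧ (∀ i, q.kp (q.ec j i) ∈ q.E j) ∧
  (∀ t ∈ q.E j, t ≠ q.x → ∃ i, t = q.kp (q.ec j i)) ∧
  ((∀ μ ∈ q.W, ∀ t, μ t ≤ 1) → Sub id (q.E j) q.W (W0 s (q.E j)))

/-- leaf: the biases in the common tower on the common ring -/
def BIW : Prop := ∀ (σ I κ : Type) [Fintype σ] [DecidableEq σ] [Fintype I] [DecidableEq I]
  [Fintype κ] [DecidableEq κ] (l s M N m m' : ℕ) (q : Gq σ I κ l) (T : TS Unit) (st : T.C → ℕ)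
  (B : Bk (VV T.C σ) σ) (P : I → MvPolynomial (VV T.C σ ⊕ B.N) ℝ) (w κ0 b η : ℝ), q.Ok s →
  Tb T st M s → q.Ty T B P → 0 < b → b ≤ κ0 → (Fintype.card σ + 1) ^ s ≤ N →
  (Fintype.card (sy B univ).N * N + m' + 1 : ℝ) ≤ w * κ0 →
  (UA s T B w).HP (cst s T _ w st M) N b η → q.Bi s T B P w κ0 m →
  ∀ j (π π' : GE (q.E j)), (ug B univ (gi _ π) (P j)).IsWeightedHomogeneous Prod.snd
      (q.w (q.ec j)) ∧ ∀ t ∈ q.E j, t ≠ q.x → π'.1 = π.1 * Equiv.swap t q.x →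
    1 / 2 ^ m - 4 / 2 ^ m' - η ≤ bi (UA s T B w) (MR id q.W (dk fun _ => κ0)) (fm s T _ w)
      (ug B univ (gi _ π) (P j) - ug B univ (gi _ π') (P j))

/-- leaf: from the small ring to the big ring -/
def RXW : Prop := ∀ (σ I κ C : Type) [Fintype σ] [DecidableEq σ] [Fintype I] [DecidableEq I]
  [Fintype κ] [DecidableEq κ] [DecidableEq C] (l s M : ℕ) (q : Gq σ I κ l) (U : TS σ)
  (st : U.C → ℕ) (fm : U.C → C) (κ' : (σ ⊕ κ × Bool →₀ ℕ) → ℝ) (K : Kn (σ ⊕ κ × Bool)) (R : ℝ)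
  (y : U.Cw (MR q.cl (q.W' s) K) → ℤ) (j : I) (G : MvPolynomial (VV C σ) ℝ), q.Ok s → U.Ok →
  U.Stg st M → (∀ μ, 0 < κ' μ) → 0 ≤ R → G.IsWeightedHomogeneous Prod.snd (q.w (q.ec j)) →
  (Rx (U.sh (MR q.cl (q.We s (q.ec j)) (dk κ'))) (fun p => p.1.2.1 (.inl q.x) ≠ 0)
    (zc (rq U _ _ id y)) R fun ξ => eval (ex U _ fm ξ) (sbp q.r1 (q.We s (q.ec j)) G)) →
  Rx (U.sh (MR q.cl (q.W' s) (dk κ'))) (fun p => p.1.2.1 (.inl q.x) ≠ 0) (fun p => (y p : ℝ)) R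
    fun ξ => eval (sbv q.r2 (q.W' s) (ex U _ fm ξ)) G

/-- leaf: the point and the brackets at the point -/
def PTQ : Prop := ∀ (σ I κ : Type) [Fintype σ] [DecidableEq σ] [Fintype I] [DecidableEq I]
  [Fintype κ] [DecidableEq κ] (l s M : ℕ) (q : Gq σ I κ l) (T : TS Unit) (st : T.C → ℕ)
  (B : Bk (VV T.C σ) σ) (P : I → MvPolynomial (VV T.C σ ⊕ B.N) ℝ) (w : ℝ) (K0 : Kn σ)
  (K : Kn (σ ⊕ κ × Bool)) (y : (UA s T B w).Cw (MR q.cl (q.W' s) K) → ℤ), q.Ok s → Tb T st M s →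
  q.Ty T B P →
  res s T _ w id q.W K0 (hs _ _ (q.r0 fun _ => false) y) =
    hs T _ (q.r0 fun _ => false) (res s T _ w q.cl (q.W' s) K y) ∧
  (∀ a, ex _ (MR id q.W K0) (fm s T _ w) (hs _ _ (q.r0 fun _ => false) y)
      (.inr (syn B univ (g1 univ) a), B.wd a) = ∑ x with x.1.1 = a,
    smat (q.r0 fun _ => false) (B.wd a) x.1.2.1 * kq s T B w q.cl (q.W' s) K y x) ∧
  (∀ F μ, yq s T B w q.cl (q.W' s) K y (.inl F, μ) =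
    ex T _ id (res s T _ w q.cl (q.W' s) K y) (F, μ)) ∧
  (∀ c μ, yq s T B w q.cl (q.W' s) K y (c, μ) ≠ 0 → μ ∈ q.W' s ∧ μ.degree = (bar T B w).lev c) ∧
  ∀ o : (sp (sy B univ) q.cl (q.W' s)).N → ℝ, ∃ o' : (sp B q.cl (q.W' s)).N → ℝ,
    ∀ y : (UA s T B w).Cw (MR q.cl (q.W' s) K) → ℤ,
    (∀ x, |eval (Sum.elim (ex T _ id (zc (res s T _ w q.cl (q.W' s) K y)))
      fun x => (nw s T _ w q.cl (q.W' s) K y x : ℤ)) ((sp (sy B univ) q.cl (q.W' s)).Θ x) -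
        o x - (nw s T _ w q.cl (q.W' s) K y x : ℤ)| ≤ 1) →
    ∀ x, |eval (Sum.elim (ex T _ id (zc (res s T _ w q.cl (q.W' s) K y)))
      fun x => (kq s T B w q.cl (q.W' s) K y x : ℝ)) ((sp B q.cl (q.W' s)).Θ x) -
        o' x - kq s T B w q.cl (q.W' s) K y x| ≤ 1

/-- leaf: the errors of the diagonal words -/
def PERR : Prop := ∀ (σ τ : Type) [Fintype σ] [DecidableEq σ] [DecidableEq τ] (s M : ℕ)
  (T : TS Unit) (st : T.C → ℕ) (B : Bk (VV T.C σ) σ) (w R : ℝ) (col : τ → σ)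
  (W : Finset (τ →₀ ℕ)) (K : Kn τ) (y : (UA s T B w).Cw (MR col W K) → ℤ), Tb T st M s → Bo B →
  (∀ a, (B.wd a).degree ≤ s) → Dn W → (∀ μ ∈ W, ∀ t, μ.mapDomain col t ≤ 1) → 0 ≤ R →
  (∀ x, |eval (Sum.elim (ex T _ id (zc (res s T _ w col W K y)))
    fun x => (nw s T _ w col W K y x : ℤ)) ((sp (sy B univ) col W).Θ x) -
      (nw s T _ w col W K y x : ℤ)| ≤ R) →
  ∀ a, ∀ μ ∈ W, μ.degree = (B.wd a).degree → |yq s T B w col W K y (.inr a, μ) -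
    sv (dgl T B (B.Θ a)) μ fun v => (yq s T B w col W K y v : ℝ)| ≤
      Fintype.card (sy B univ).N * R

/-- leaf: descent of the symmetrised relation -/
def DSQ : Prop := ∀ (σ I κ : Type) [Fintype σ] [DecidableEq σ] [Fintype I] [DecidableEq I]
  [Fintype κ] [DecidableEq κ] (l s M : ℕ) (q : Gq σ I κ l) (T : TS Unit) (st : T.C → ℕ)
  (B : Bk (VV T.C σ) σ) (P : I → MvPolynomial (VV T.C σ ⊕ B.N) ℝ) (w b R : ℝ)
  (κ' : (σ ⊕ κ × Bool →₀ ℕ) → ℝ) (K : Kn (σ ⊕ κ × Bool))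
  (y : (UA s T B w).Cw (MR q.cl (q.W' s) K) → ℤ) (j : I), q.Ok s → Tb T st M s → q.Ty T B P →
  0 < w → 0 < b → (∀ μ, b ≤ κ' μ) → 0 ≤ R → 4 * (3 * s * s.factorial * R) ^ 2 < w * b →
  (∀ π π' : GE (q.E j), ∀ t ∈ q.E j, t ≠ q.x → π'.1 = π.1 * Equiv.swap t q.x →
    Rx ((UA s T B w).sh (MR q.cl (q.W' s) (dk κ'))) (fun p => p.1.2.1 (.inl q.x) ≠ 0)
      (fun p => (y p : ℝ)) R fun ξ => eval (sbv q.r2 (q.W' s) (ex _ _ (fm s T _ w) ξ))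
        (ug B univ (gi _ π) (P j) - ug B univ (gi _ π') (P j))) →
  Rx ((bar T B w).sh (MR (fun _ => ()) (q.W' s) (dk κ'))) (fun p => p.1.2.1 (.inl q.x) ≠ 0)
    (fun p => (yq s T B w q.cl (q.W' s) K y (p.1.1, p.1.2.1) : ℝ)) (3 * s * s.factorial * R)
    (q.Gs s T B w _ (kq s T B w q.cl (q.W' s) K y) j (P j))

/-- the density after the core -/
def m1 (s n m g : ℕ) : ℕ := ((m + (g + 2) * n + 3) * (n + 1) + 2) * 2 ^ s + 3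

/-- **the substitution step**, semantic form -/
def SUBQ : Prop := ∀ s : ℕ, ∃ c0 : ℕ, ∀ (σ I κ : Type) [Fintype σ] [DecidableEq σ] [Fintype I]
  [DecidableEq I] [Fintype κ] [DecidableEq κ] (l M n N m g g0 : ℕ) (q : Gq σ I κ l) (T : TS Unit)
  (st : T.C → ℕ) (B : Bk (VV T.C σ) σ) (P : I → MvPolynomial (VV T.C σ ⊕ B.N) ℝ)
  (w κ0 a b η : ℝ) (κz : (σ →₀ ℕ) → ℝ) (H : Set (T.Cw (MR (fun _ => ()) q.W (dk κz)) → ℤ)),
  q.Ok s → l ≤ s → Tb T st M s → q.Ty T B P → Fintype.card σ ≤ n →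
  Fintype.card I * (s.factorial * s) ≤ n → Fintype.card κ ≤ n → q.mc ≤ n →
  Fintype.card (sy B univ).N ≤ n → (n + 2) ^ c0 ≤ N → 0 < b → (n + 2) ^ c0 * b ≤ a →
  (∀ μ, a ≤ κz μ ∧ κz μ ≤ 1) → a ≤ κ0 → κ0 ≤ 1 → Fintype.card (UA s T B w).C * N ≤ 2 ^ g0 →
  g0 ≤ g → w ≤ 4 ^ g → (n * N + m1 s n m g : ℝ) ≤ w * b →
  4 * (3 * s * s.factorial * (2 ^ g0 + m1 s n m g + 1 : ℝ)) ^ 2 < w * b →
  0 ≤ η → η ≤ 1 / 2 ^ m1 s n m g → T.HM st N b η → (UA s T B w).HM (cst s T _ w st M) N b η →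
  (UA s T B w).HP (cst s T _ w st M) N b η → 1 / 2 ^ m ≤ (T.sh _).P H → q.Bi s T B P w κ0 m →
  ∃ (κ' : (σ ⊕ κ × Bool →₀ ℕ) → ℝ) (o : (sp B q.cl (q.W' s)).N → ℝ),
    (∀ μ, b ≤ κ' μ ∧ κ' μ ≤ 1) ∧
    1 / 2 ^ (m1 s n m g + 3 + (2 * g + m1 s n m g + 8) * (n * N)) ≤
      (T.sh (MR (fun _ => ()) (q.W' s) (dk κ'))).P {y | ∃ k Y, q.Oq s T B P w κ0 b
        (n * (2 ^ (2 * g + m1 s n m g + 4) + 1) + 2 ^ g) _ H _ o y k Y}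

/-- **the substitution step** -/
def SUBN (s M : ℕ) : Prop := ∃ C c : ℕ, ∀ (σ I κ : Type) [Fintype σ] [DecidableEq σ] [Fintype I]
  [DecidableEq I] [Fintype κ] [DecidableEq κ] (l n m g : ℕ) (q : Gq σ I κ l) (T : TS Unit)
  (st : T.C → ℕ) (B : Bk (VV T.C σ) σ) (P : I → MvPolynomial (VV T.C σ ⊕ B.N) ℝ)
  (κ0 : ℝ) (κz : (σ →₀ ℕ) → ℝ) (H : Set (T.Cw (MR (fun _ => ()) q.W (dk κz)) → ℤ)),
  q.Ok s → l ≤ s → Tb T st M s → q.Ty T B P → 2 ≤ n → Fintype.card σ ≤ n → Fintype.card I ≤ n →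
  Fintype.card κ ≤ n → q.mc ≤ n → Fintype.card B.N ≤ n → Fintype.card T.C ≤ 2 ^ n →
  (∀ μ, 1 / 2 ^ n ≤ κz μ ∧ κz μ ≤ 1) → 1 / 2 ^ n ≤ κ0 → κ0 ≤ 1 → n ^ c ≤ g → m ≤ n * g →
  T.RgS st M C (g ^ c) (1 / 2 ^ g ^ c) (1 / 2 ^ g ^ c) →
  1 / 2 ^ m ≤ (T.sh _).P H → q.Bi s T B P (4 ^ g) κ0 m →
  ∃ (b : ℝ) (κ' : (σ ⊕ κ × Bool →₀ ℕ) → ℝ) (o : (sp B q.cl (q.W' s)).N → ℝ),
    1 / 2 ^ g ≤ b ∧ b ≤ κ0 ∧ (∀ μ, b ≤ κ' μ ∧ κ' μ ≤ 1) ∧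
    1 / 2 ^ g ^ c ≤ (T.sh (MR (fun _ => ()) (q.W' s) (dk κ'))).P
      {y | ∃ k Y, q.Oq s T B P (4 ^ g) κ0 b (2 ^ g ^ c) _ H _ o y k Y}

end Crest.Agent.N49.Su

end
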