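import Crest.Agent.N49.Su.Df2
import Crest.Agent.N49.Tw.ConM

/-!
# Row 49 (helper82): the words of the sections
-/

set_option autoImplicit false
set_option linter.unusedSectionVars false

open Finset

noncomputable section

namespace Crest.Agent.N49.Su

open Po Tw Sd Sw

namespace Ew
variable {σ : Type} [DecidableEq σ]

theorem wE_app (E : Finset σ) (a : σ) : wE E a = if a ∈ E then 1 else 0 := by
  simp [wE, Finsupp.finsetSum_apply, Finsupp.single_apply]

theorem wE_supp (E : Finset σ) : (wE E).support = E := by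
  ext a
  by_cases h : a ∈ E <;> simp [wE_app, h]

theorem wE_deg (E : Finset σ) : (wE E).degree = #E := by
  simp [wE, map_sum]

theorem card_GE [Fintype σ] (E : Finset σ) : Fintype.card (GE E) = (#E).factorial := by
  rw [← Fintype.card_coe E, ← Fintype.card_perm]
  exact Fintype.card_congr (((Equiv.Perm.subtypeEquivSubtypePerm (· ∈ E)).trans
    (Equiv.subtypeEquivRight fun π => by simp [GE])).symm)
end Ew

open Ew in
theorem ewq : EWQ := by
  intro σ I κ _ _ _ _ _ _ l s q j h
  have inj : Function.Injective fun i => q.kp (q.ec j i) := fun i i' e => by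
    rw [← h.ec j i, h.inj e, h.ec]
  have nx : q.x ∉ univ.image fun i => q.kp (q.ec j i) := by
    simp only [mem_image, not_exists, not_and]
    exact fun i _ => h.x _
  have e1 : wE (insert q.x (univ.image fun i => q.kp (q.ec j i))) = q.w (q.ec j) := by
    rw [wE, sum_insert nx, sum_image fun i _ i' _ e => inj e]; rfl
  have e2 : q.E j = insert q.x (univ.image fun i => q.kp (q.ec j i)) := by
    rw [Gq.E, ← e1, wE_supp]
  have e3 : #(q.E j) = l + 1 := by
    rw [e2, card_insert_of_notMem nx, card_image_of_injective _ inj]; simp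
  have e4 : l + 1 ≤ s := by
    have := h.dg _ (h.w j)
    rwa [← e1, wE_deg, ← e2, e3] at this
  refine ⟨e2 ▸ e1, e3, e4, e2 ▸ mem_insert_self _ _, ?_, fun i => ?_, fun t ht hx => ?_,
    fun sq => ⟨Function.injective_id, fun ν => ?_⟩⟩
  · rw [card_GE, e3]; exact Nat.factorial_le e4
  · rw [e2]; exact mem_insert_of_mem (mem_image_of_mem _ (mem_univ i))
  · rw [e2, mem_insert, mem_image] at ht
    obtain ⟨i, -, e⟩ := ht.resolve_left hx
    exact ⟨i, e.symm⟩
  · rw [Finsupp.mapDomain_id, W0, mem_filter, sqf, mem_filter]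
    refine ⟨fun k => ⟨h.dn _ (h.w j) _ fun a => ?_, k.2⟩, fun k => ⟨⟨?_, sq _ k.1⟩, k.2⟩⟩
    · rw [← e1, ← e2, wE_app]
      split_ifs with ha
      · exact k.1.2 a
      · exact (Finsupp.notMem_support_iff.1 fun m => ha (k.2 m)).le
    · exact Tw.mem_full.2 (h.dg _ k.1)

end Crest.Agent.N49.Su

end
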