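import Crest.Agent.N49.Su.Defs
import Crest.Agent.N49.Sw.Rtr

/-!
# Row 49 (helper17): calculus of restrictions (`EXQ`)
-/

set_option autoImplicit false

open Matrix MvPolynomial Finset

noncomputable section

namespace Crest.Agent.N49.Su

open Po Tw Sd Sw

namespace Eq0

theorem ev_sbp {C τ τ' : Type} [Fintype τ'] (φ : τ → τ' → ℤ) (W : Finset (τ →₀ ℕ))
    (P : MvPolynomial (VV C τ') ℝ) (z : VV C τ → ℝ) :
    eval z (sbp φ W P) = eval (sbv φ W z) P := by
  rw [sbp]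
  induction P using MvPolynomial.induction_on with
  | C a => simp
  | add p q a b => simp only [map_add, a, b]
  | mul_X p v a => simp only [map_mul, a, aeval_X, eval_X, map_sum, smul_eval, sbv]

variable {σ τ τ' C R : Type} [DecidableEq σ] [DecidableEq τ] [DecidableEq τ'] [DecidableEq C]
  [AddCommMonoid R] (U : TS σ) (fm : U.C → C) {col : τ → σ} {W : Finset (τ →₀ ℕ)} {K : Kn τ}
  {col' : τ' → σ} {W' : Finset (τ' →₀ ℕ)} {K' : Kn τ'} {ι : τ' → τ}

theorem ex_at (y : U.Cw (MR col W K) → R) (p : U.Cw (MR col W K)) :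
    ex U _ id y (p.1.1, p.1.2.1) = y p := by
  refine sum_eq_single_of_mem p (mem_filter.2 ⟨mem_univ _, rfl, rfl⟩) fun q hq n => ?_
  obtain ⟨-, a, b⟩ := mem_filter.1 hq
  exact absurd (Subtype.ext (Prod.ext a (Subtype.ext b))) n

theorem rq_at (y : U.Cw (MR col W K) → R) (p' : U.Cw (MR col' W' K')) (p : U.Cw (MR col W K))
    (a : p.1.1 = p'.1.1) (b : p.1.2.1 = p'.1.2.1.mapDomain ι) : rq U _ _ ι y p' = y p :=
  (congrArg (ex U _ id y) (Prod.ext a.symm b.symm)).trans (ex_at U y p)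

theorem ex_rq (hc : ∀ b, col (ι b) = col' b) (y : U.Cw (MR col W K) → R) (c : C) {ν : τ' →₀ ℕ}
    (h : ν ∈ W') : ex U (MR col' W' K') fm (rq U _ _ ι y) (c, ν) =
      ex U (MR col W K) fm y (c, ν.mapDomain ι) := by
  simp only [ex, rq, sum_filter]
  rw [sum_congr rfl fun p' _ => show _ = ∑ p : U.Cw (MR col W K),
    if (fm p'.1.1 = c ∧ (MR col' W' K').ty p'.1.2 = ν) ∧ id p.1.1 = p'.1.1 ∧
      (MR col W K).ty p.1.2 = ((MR col' W' K').ty p'.1.2).mapDomain ι then y p else 0 by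
      split_ifs with k <;> simp [k], sum_comm]
  refine sum_congr rfl fun p _ => ?_
  split_ifs with k
  · have n : ν ≠ 0 := fun z => (mem_erase.1 p.1.2.2).1 (k.2.trans (by rw [z]; simp))
    let p' : U.Cw (MR col' W' K') := ⟨(p.1.1, ⟨ν, mem_erase.2 ⟨n, h⟩⟩),
      (Rt.md_col hc ν).symm.trans ((congrArg (Finsupp.mapDomain col) k.2.symm).trans p.2)⟩
    exact (sum_eq_single p' (fun q _ e => if_neg fun z => e (Subtype.ext (Prod.ext z.2.1.symm
      (Subtype.ext z.1.2)))) (by simp)).trans (if_pos ⟨⟨k.1, rfl⟩, rfl, k.2⟩)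
  · exact sum_eq_zero fun q _ => if_neg fun z =>
      k ⟨(congrArg fm z.2.1).trans z.1.1, z.2.2.trans (congrArg _ z.1.2)⟩

end Eq0

open Eq0 in
theorem exq : EXQ := by
  refine ⟨fun C τ τ' _ => ev_sbp, fun σ τ τ' C R _ _ _ _ _ U fm col W K col' W' K' ι hc hi =>
    ⟨fun y c ν h => ex_rq U fm hc y c h, rq_at U, fun y => funext fun p => Int.cast_sum _ _,
    fun o _ d hW y p' p a b => ?_, fun τ'' _ col'' W'' K'' ι' y _ hW => funext fun p => ?_⟩⟩
  · have e : p = Rt.jj U K K' hi hc hW p' := Subtype.ext (Prod.ext a (Subtype.ext b))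
    have e' : rq U _ (MR col' W' K') ι y = fun p => y (Rt.jj U K K' hi hc hW p) :=
      funext fun q => rq_at U y q _ rfl rfl
    rw [e, e']
    exact Rt.u_jj U K K' hi hc hW o d y p'
  · exact (ex_rq U id hc y _ (hW _ (mem_erase.1 p.1.2.2).2)).trans
      (congrArg (fun μ => ex U _ id y (p.1.1, μ)) Finsupp.mapDomain_comp.symm)

end Crest.Agent.N49.Su

end
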