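import Crest.Agent.N49.Su.Defs
import Crest.Agent.N49.Sw.Msec
import Crest.Agent.N49.Tw.Cgen
import Crest.Agent.N49.Tw.Api

/-!
# Row 49 (helper91): killing letters is a split surjection of monomial rings
-/

set_option autoImplicit false

open Matrix MvPolynomial Finset

noncomputable section

namespace Crest.Agent.N49.Su

open Po Tw Sd Sw

namespace Kl

theorem lo_inj {a b : Type} [Fintype a] [Fintype b] {f : a → b} (hf : Function.Injective f)
    {M : Matrix b b ℝ} {M' : Matrix a a ℝ} (e : ∀ i j, M' i j = M (f i) (f j)) {c : ℝ}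
    (h : ∀ x, c * ∑ i, x i ^ 2 ≤ qf M x) (x : a → ℝ) : c * ∑ i, x i ^ 2 ≤ qf M' x := by
  have s : ∀ g : b → ℝ, ∑ i, Function.extend f x 0 i * g i = ∑ j, x j * g (f j) := fun g =>
    (Fintype.sum_of_injective f hf _ _ (fun i n => mul_eq_zero_of_left
      (Function.extend_apply' x (0 : b → ℝ) i n) _) fun j => by rw [hf.extend_apply]).symm
  have := h (Function.extend f x 0)
  simp only [qf, dotProduct, mulVec, pow_two, s, hf.extend_apply, mul_comm (M _ _)] at this
  simpa only [qf, dotProduct, mulVec, pow_two, e, mul_comm (M _ _)] using this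

theorem push_tw0 {σ τ τ' : Type} [DecidableEq σ] {U : TS σ} {S : Sh σ τ} {S' : Sh σ τ'}
    {f : (U.Cw S → ℤ) → U.Cw S' → ℤ} {η : ℝ}
    (h : (U.tw S (U.tw0 S)).Push (U.tw S' (U.tw0 S')) f η) : (U.sh S).Push (U.sh S') f η := by
  have e : (U.tw S (U.tw0 S)).Φ = (U.sh S).Φ :=
    funext fun p => congrArg (S.cf _ p.1.2) (TS.eval₂_tw0 _ _)
  have e' : (U.tw S' (U.tw0 S')).Φ = (U.sh S').Φ :=
    funext fun p => congrArg (S'.cf _ p.1.2) (TS.eval₂_tw0 _ _)
  have k : ∀ Φ Φ', Φ = (U.sh S).Φ → Φ' = (U.sh S').Φ →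
      ((U.sh S).setΦ Φ).Push ((U.sh S').setΦ Φ') f η → (U.sh S).Push (U.sh S') f η := by
    rintro _ _ rfl rfl t
    exact t
  exact k _ _ e e' h

variable {τ τ' : Type} [DecidableEq τ] [DecidableEq τ'] [Fintype τ'] {ι : τ' → τ} {S : Finset τ'}

variable (ι S) in
/-- the letters `ι b`, `b ∈ S`, are renamed, the others are killed -/
def kf : τ → τ' → ℤ := fun a b => if b ∈ S ∧ ι b = a then 1 else 0

omit [Fintype τ'] in
theorem kf_ne {a : τ} {b : τ'} (z : kf ι S a b ≠ 0) : b ∈ S ∧ ι b = a :=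
  of_not_not fun n => z (if_neg n)

omit [Fintype τ'] in
theorem kf_ι (hι : Function.Injective ι) {b : τ'} (k : b ∈ S) :
    kf ι S (ι b) = Pi.single b 1 := funext fun c => by
  rw [kf, Pi.single_apply]
  exact if_congr ⟨fun h => hι h.2, fun h => ⟨h ▸ k, congrArg ι h⟩⟩ rfl rfl

theorem smat_kf (hι : Function.Injective ι) {ν : τ' →₀ ℕ} (k : ν.support ⊆ S) (μ : τ →₀ ℕ) :
    smat (kf ι S) ν μ = if μ = ν.mapDomain ι then 1 else 0 := by
  by_cases c : ∀ a ∈ μ.support, ∃ b ∈ S, ι b = a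
  · have e : (μ.comapDomain ι hι.injOn).mapDomain ι = μ :=
      Finsupp.mapDomain_comapDomain ι hι μ fun a h => by
        obtain ⟨b, -, e⟩ := c a h
        exact ⟨b, e⟩
    rw [← e, Ms.smat_sec fun b h => ?_]
    · exact if_congr (Finsupp.mapDomain_injective hι).eq_iff.symm rfl rfl
    · obtain ⟨b', m, e⟩ := c (ι b) (by simpa using h)
      exact kf_ι hι (hι e ▸ m)
  · rw [if_neg fun e => c fun a h => ?_]
    · push Not at c
      obtain ⟨a, h, n⟩ := c
      have z : (∑ b, kf ι S a b • X b : MvPolynomial τ' ℤ) = 0 := sum_eq_zero fun b _ => by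
        rw [kf, if_neg fun t => n b t.1 t.2, zero_smul]
      rw [smat, lsub, aeval_monomial, Finsupp.prod, prod_eq_zero h, mul_zero, coeff_zero]
      rw [z, zero_pow (Finsupp.mem_support_iff.1 h)]
    · rw [e] at h
      obtain ⟨b, m, e⟩ := mem_image.1 (Finsupp.mapDomain_support h)
      exact ⟨b, k m, e⟩

end Kl

open Kl in
/-- **killing letters** -/
theorem kill' : KILL := by
  intro σ τ τ' _ _ _ _ _ U st M N s b η col W K col' W' K' ι S sb hc sz hW dg one hK hN sg hp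
  have hι := sb.inj
  have dn : Dn W' := fun ν k ν' le => (sb.mem _).2
    ⟨hW _ ((sb.mem _).1 k).1 _ (Finsupp.mapDomain_mono le),
      (Finsupp.support_mono le).trans ((sb.mem _).1 k).2⟩
  have mem : ∀ ν ∈ W', ν ≠ 0 → ν.mapDomain ι ∈ W.erase 0 := fun ν k n => mem_erase.2
    ⟨fun z => n (Finsupp.mapDomain_injective hι (z.trans Finsupp.mapDomain_zero.symm)),
      ((sb.mem _).1 k).1⟩
  have sm : ∀ ν ∈ W', ∀ μ, smat (kf ι S) ν μ = if μ = ν.mapDomain ι then 1 else 0 :=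
    fun ν k => smat_kf hι ((sb.mem _).1 k).2
  obtain ⟨e, sec⟩ := msec σ τ τ' col W K col' W' K' (kf ι S) ι 1 s hW dn sz.toOk dg le_rfl
    (fun a b => by rw [kf]; split_ifs <;> simp)
    (fun a b z => (kf_ne z).2 ▸ hc b)
    (fun ν k μ z => by
      rw [sm ν k] at z
      exact (of_not_not fun n => z (if_neg n) : μ = _) ▸ ((sb.mem _).1 k).1)
    (fun ν k b m => kf_ι hι (((sb.mem _).1 k).2 m))
    (fun a b z => (sb.mem _).2 ⟨by rw [Finsupp.mapDomain_single]; exact one b (kf_ne z).1,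
      Finsupp.support_single_subset.trans (singleton_subset_iff.2 (kf_ne z).1)⟩)
    (fun ν n k m => (n ((sb.mem _).2 ⟨m, fun b h => ((sb.mem _).1 (k b h)).2 (by simp)⟩)).elim)
    (fun ν k ν' k' n n' => by
      rw [hK ν k ν' k' n n', kpush]
      simp only [sm ν k, sm ν' k', Int.cast_ite, Int.cast_one, Int.cast_zero, ite_mul, mul_ite,
        one_mul, mul_one, zero_mul, mul_zero, sum_ite_eq', if_pos (mem ν k n),
        if_pos (mem ν' k' n')])
  rw [one_mul] at sec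
  have sec' : (MR col W K).Sec (MR col' W' K') N (Sh.smm col W 0 K _ (kf ι S)) e :=
    ⟨sec.ok, sec.hm, sec.K, sec.sec, fun w x => (sec.ht w x).trans (by exact_mod_cast hN), sec.gen⟩
  let f : Sh.MW W' → Sh.MW W := fun w => ⟨_, mem _ w.mem w.ne⟩
  have fi : Function.Injective f := fun w w' h =>
    Subtype.ext (Finsupp.mapDomain_injective hι (congrArg Subtype.val h))
  have o := Sh.mono_sz' (col := col') (ε := 0) (Kw := dk fun _ => 1) dn
    ((kb_dk (a := 1) (b := 1) fun _ _ => ⟨le_rfl, le_rfl⟩).pd' one_pos) (Sh.dk_blk _)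
    (n := N) (((Fintype.card_coe _).symm.le.trans (Fintype.card_le_of_injective f fi)).trans sz.card)
    (kb_dk (a := 1) (b := 1) fun _ _ => ⟨le_rfl, le_rfl⟩).lo'
  refine ⟨dn, ⟨sec.ok, o.card, o.ht, lo_inj (M := (MR col W K).K) (M' := (MR col' W' K').K) fi
    (fun w w' => hK _ w.mem _ w'.mem w.ne w'.ne) sz.lo, o.gen⟩, ?_⟩
  obtain ⟨J, _, _, ψ, N', Q, cj, sp⟩ := lsec _ _ _ _ _ _ _ _ sec'
    ((Nat.one_le_pow _ _ (Nat.succ_pos _)).trans hN)
  have p := hp _ _ J _ _ _ _ ψ N' Q cj (sg.adm sz.toOk) sz sp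
  rw [TS.tp_tw0 sec.hm.mass] at p
  have eq : U.hm (MR col W K) (MR col' W' K') (Sh.smm col W 0 K _ (kf ι S)) = rq U _ _ ι :=
    funext fun y => funext fun p' => by
      change ∑ p : U.Cw (MR col W K) with p.1.1 = p'.1.1, smat (kf ι S) p'.1.2.1 p.1.2.1 * y p =
        ∑ p : U.Cw (MR col W K) with p.1.1 = p'.1.1 ∧ p.1.2.1 = p'.1.2.1.mapDomain ι, y p
      rw [← filter_filter, sum_filter (fun p : U.Cw (MR col W K) =>
        p.1.2.1 = p'.1.2.1.mapDomain ι)]
      refine sum_congr rfl fun p _ => ?_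
      rw [sm _ (Sh.MW.mem p'.1.2), ite_mul, one_mul, zero_mul]
  exact eq ▸ push_tw0 p

theorem kill (_ : EXQ) : KILL := kill'

end Crest.Agent.N49.Su

end
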