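import Crest.Agent.N49.Su.Df2
import Crest.Agent.N49.Su.Kill
import Crest.Agent.N49.Su.Exq
import Crest.Agent.N49.Sw.Enl
import Crest.Agent.N49.Sw.Cubf2

/-!
# Row 49 (helper76): the biases in the common tower on the common ring (`BIW`)
-/

set_option autoImplicit false

open Matrix MvPolynomial Finset

noncomputable section

namespace Crest.Agent.N49.Su

open Po Tw Sd Sw

/-- killing the letters that a form does not contain -/
theorem bi_kill {σ C : Type} [Fintype σ] [DecidableEq σ] [DecidableEq C] {U : TS σ}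
    {st : U.C → ℕ} {M N s : ℕ} {κ b η : ℝ} {E : Finset σ} {W W' : Finset (σ →₀ ℕ)} (fm : U.C → C)
    (hU : U.Stg st M) (sb : Sub id E W W') (z : (MR id W (dk fun _ => κ)).Sz N b) (dn : Dn W)
    (dg : ∀ μ ∈ W, μ.degree ≤ s) (one : ∀ a, Finsupp.single a 1 ∈ W)
    (hN : (Fintype.card σ + 1) ^ s ≤ N) (hp : U.HP st N b η) (Q : MvPolynomial (VV C σ) ℝ)
    (hQ : ∀ v ∈ Q.vars, v.2.support ⊆ E) :
    bi U (MR id W' (dk fun _ => κ)) fm Q ≤ bi U (MR id W (dk fun _ => κ)) fm Q + η := by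
  obtain ⟨-, z', p⟩ := kill' σ σ σ U st M N s b η id W (dk fun _ => κ) id W' (dk fun _ => κ) id E
    sb (fun _ => rfl) z dn dg (fun a _ => one a)
    (fun ν _ ν' _ _ _ => by rw [Finsupp.mapDomain_id, Finsupp.mapDomain_id]) hN hU hp
  have q := p.Ec (TS.sh_tri hU.cl z.toOk) (TS.sh_tri hU.cl z'.toOk) (B := 1)
    (g := fun y => ee (eval (ex U _ fm (zc y)) Q)) fun y => (norm_ee _).le
  rw [one_mul, norm_sub_rev] at q
  have r := sub_le_iff_le_add'.1 ((norm_sub_norm_le _ _).trans q)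
  refine r.trans (add_le_add (congrArg norm (congrArg _
    (_root_.funext fun y => congrArg ee ?_))).le le_rfl)
  obtain ⟨e1, -, e3, -⟩ := exq.2 σ σ σ C ℝ U fm id W (dk fun _ => κ) id W' (dk fun _ => κ) id
    (fun _ => rfl) Function.injective_id
  refine Enl.ev_congr ?_
  rintro ⟨c, ν⟩ hv
  by_cases h : ν ∈ W'
  · exact (congrArg (ex U _ fm · (c, ν)) (e3 y)).trans ((e1 _ c ν h).trans
      (congrArg (fun μ => ex U _ fm _ (c, μ)) Finsupp.mapDomain_id))
  · exact (Enl.ex_zero U fm _ c h).trans (Enl.ex_zero U fm _ c fun k => h ((sb.mem ν).2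
      ⟨by rwa [Finsupp.mapDomain_id], hQ _ hv⟩)).symm

open Enl in
/-- **BIW** -/
theorem biw (hE : EWQ) : BIW := by
  classical
  intro σ I κ _ _ _ _ _ _ l s M N m m' q T st B P w κ0 b η ok hT ty b0 bk hN hw hp hB j π π'
  obtain ⟨eE, -, -, xE, -, -, -, sb⟩ := hE σ I κ l s q j ok
  have k0 : 0 < κ0 := b0.trans_le bk
  have wk : 0 < w * κ0 := lt_of_lt_of_le (by positivity) hw
  have w0 : 0 < w := pos_of_mul_pos_left wk k0.le
  have hd : ∀ a, (B.wd a).degree ≤ s := fun a => ok.dg _ (ty.wd a).1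
  have hP : (P j).IsWeightedHomogeneous (B.wg Prod.snd) (wE (q.E j)) := eE ▸ ty.hom j
  obtain ⟨⟨b1, b2, -⟩, -⟩ := perm σ s M T st B w κ0 univ hT ty.bo hd w0 k0
  obtain ⟨-, p2, p3⟩ := perm σ s M T st B w κ0 (q.E j) hT ty.bo hd w0 k0
  have cW : ∀ W : Finset (σ →₀ ℕ), (∀ μ ∈ W, μ.degree ≤ s) → #W ≤ N := fun W h =>
    (card_le_card fun μ k => mem_full.2 (h μ k)).trans ((C2.card_fl σ s).trans hN)
  refine ⟨?_, fun t ht tx e => ?_⟩
  · rw [← ug_jn, ← eE]
    have := Pe.hom_rn (Prod.map (Sum.map id (jn B (q.E j))) id) id (w' := Prod.snd)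
      (fun a => Finsupp.mapDomain_id.symm) (p2 π _ hP)
    rwa [Finsupp.mapDomain_id] at this
  · let ρ : GE (q.E j) := ⟨Equiv.swap t q.x, Pe.mem_GE.2 fun u hu =>
      Equiv.swap_apply_of_ne_of_ne (fun h => hu (h ▸ ht)) fun h => hu (h ▸ xE)⟩
    have q0 := (hB j ρ t ht tx rfl).trans_eq (p3 π (g1 _) ρ π π' (P j) (mul_one _).symm e).symm
    have q1 := bi_sub (m := m') id hT (Pe.bo_sy (E := q.E j) ty.bo) b1 b2 (jn_inj B _)
      (fun _ => rfl) (Θ_jn B _ ty.bo.ok) (dn_W0 (s := s) (E := q.E j)) k0 (le_trans (by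
        have := cW (W0 s (q.E j)) fun μ h => (mem_sqf.1 (mem_W0.1 h).1).1
        gcongr) hw) (ug B _ π (P j) - ug B _ π' (P j))
    rw [map_sub, ug_jn, ug_jn] at q1
    have q2 := bi_kill (fm s T _ w) (cola σ s M T st _ w hT b1 b2 w0).1.2 (sb ty.sq)
      (Sh.mono_sz ok.dn (kb_dk (b := κ0) fun _ _ => ⟨bk, le_rfl⟩) b0 (Sh.dk_blk _) (cW _ ok.dg))
      ok.dn ok.dg ok.one hN hp (ug B univ (gi _ π) (P j) - ug B univ (gi _ π') (P j)) fun v hv =>
      (mem_union.1 (vars_sub_subset _ hv)).elim (vars_ug B _ π hP v) (vars_ug B _ π' hP v)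
    linarith

end Crest.Agent.N49.Su

end
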