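import Crest.Agent.N49.Su.Defs

/-!
# Row 49 (helper95): the kernel that is kept is diagonal
-/

set_option autoImplicit false
set_option linter.unusedSectionVars false

open MvPolynomial Finset

noncomputable section

namespace Crest.Agent.N49.Su

open Tw Sw

namespace Kd

/-- a substitution that is monomial on the letters of `A` -/
theorem smat_md {τ τ' : Type} [Fintype τ'] [DecidableEq τ'] {φ : τ → τ' → ℤ} {ρ : τ → τ'}
    {A : τ' → Prop} (h : ∀ t b, φ t b ≠ 0 → A b → b = ρ t) (n : ℕ) : ∀ (x : τ →₀ ℕ) (a : τ' →₀ ℕ),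
    x.degree = n → smat φ a x ≠ 0 → (∀ b, a b ≠ 0 → A b) → a = x.mapDomain ρ := by
  induction n with
  | zero =>
    intro x a e z _
    obtain rfl := (Finsupp.degree_eq_zero_iff x).1 e
    rw [Finsupp.mapDomain_zero]
    by_contra k
    exact z (by rw [smat, monomial_zero', C_1, map_one, coeff_one, if_neg (Ne.symm k)])
  | succ n ih =>
    intro x a e z hA
    obtain ⟨t, ht⟩ := Finsupp.ne_iff.1 (show x ≠ 0 by rintro rfl; simp at e)
    obtain ⟨x, rfl⟩ := exists_add_of_le
      (Finsupp.single_le_iff.2 (Nat.one_le_iff_ne_zero.2 ht) : Finsupp.single t 1 ≤ x)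
    rw [smat, monomial_single_add, pow_one, map_mul, lsub, aeval_X, sum_mul, coeff_sum] at z
    obtain ⟨b, -, z⟩ := exists_ne_zero_of_sum_ne_zero z
    rw [smul_mul_assoc, coeff_smul, coeff_X_mul'] at z
    have k : b ∈ a.support := by_contra fun k => z (by rw [if_neg k, smul_zero])
    rw [if_pos k] at z
    have k' := Finsupp.mem_support_iff.1 k
    have := ih x _ (by rw [map_add, Finsupp.degree_single] at e; omega) (right_ne_zero_of_smul z) fun c m =>
      hA c fun o => m (by simp [o])
    rw [Finsupp.mapDomain_add, Finsupp.mapDomain_single, ← this,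
      ← h t b (left_ne_zero_of_smul z) (hA b k'), add_tsub_cancel_of_le]
    exact Finsupp.single_le_iff.2 (Nat.one_le_iff_ne_zero.2 k')

theorem w_ext {τ L : Type} {μ ν : τ ⊕ L →₀ ℕ} (a : wl μ = wl ν) (b : wr μ = wr ν) : μ = ν := by
  ext (t | t)
  exacts [DFunLike.congr_fun a t, DFunLike.congr_fun b t]

theorem md_ne {α β : Type} {f : α → β} {ν : α →₀ ℕ} {b : β} (h : ν.mapDomain f b ≠ 0) :
    ∃ a, f a = b := by_contra fun k => h (Finsupp.mapDomain_of_notMem_range _ _ k)

theorem le_md {α β : Type} (f : α → β) (ν : α →₀ ℕ) (a : α) : ν a ≤ ν.mapDomain f (f a) := by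
  have := Finsupp.mapDomain_mono (f := f) (Finsupp.single_le_iff.2 (le_refl (ν a)))
  rw [Finsupp.mapDomain_single] at this
  exact Finsupp.single_le_iff.1 this

variable {σ I κ : Type} [Fintype σ] [DecidableEq σ] [Fintype I] [DecidableEq I] [Fintype κ]
  [DecidableEq κ] {l s : ℕ} {q : Gq σ I κ l}

theorem i1_inj : Function.Injective q.i1 := by
  rintro ((a | a) | a) ((b | b) | b) e <;> simp_all [Gq.i1]

variable (q) in
/-- the surviving image of a letter -/
def rh : (Option I × σ) ⊕ κ × Bool → Option I × σ := Sum.elim id fun h => (none, q.kp h.1)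

theorem sm (o : q.Ok s) {ν : (σ ⊕ κ × Bool) ⊕ I →₀ ℕ} {x : (Option I × σ) ⊕ κ × Bool →₀ ℕ}
    (z : smat (fwF q.bl q.lam fun _ => false) (wl (ν.mapDomain q.i1)) x ≠ 0) :
    wl (ν.mapDomain q.i1) = x.mapDomain (rh q) := by
  refine smat_md (A := fun b => b.1 = none ∨ b.2 = q.x) ?_ _ x _ rfl z fun b m => ?_
  · rintro (t | t) ⟨c, a⟩ z k
    · exact by_contra fun e => z (Pi.single_eq_of_ne e _)
    · have e : a = q.kp t.1 := by_contra fun e => z (by simp [fwF, ite_apply, Gq.lam, e])
      subst e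
      exact Prod.ext (k.resolve_right (o.x _)) rfl
  · obtain ⟨(a | a) | a, e⟩ := md_ne (f := q.i1) (b := .inl b) m
    · exact .inl (congrArg Prod.fst (Sum.inl.inj e)).symm
    · cases e
    · exact .inr (congrArg Prod.snd (Sum.inl.inj e)).symm

end Kd

theorem kdg : KDG := fun σ I κ _ _ _ _ _ _ l s q κ0 b κz o hz h0 b0 b1 => by
  refine ⟨fun ν ν' => .inl ?_, fun ν => ?_, fun c ν m k => ?_⟩
  · by_cases e : ν = ν'
    · subst e; exact if_pos rfl
    have e' := (Finsupp.mapDomain_injective (M := ℕ) (Kd.i1_inj (q := q))).ne e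
    rw [dk, if_neg e, KXF]
    split_ifs with h
    · have n := fun z => e' (Kd.w_ext z (h.1.trans h.2.symm))
      rw [dk, if_neg n, sum_eq_zero fun x _ => ?_, sub_zero]
      split_ifs
      · rfl
      by_contra z
      have z := right_ne_zero_of_mul z
      exact n ((Kd.sm o (Int.cast_ne_zero.1 (left_ne_zero_of_mul z))).trans
        (Kd.sm o (Int.cast_ne_zero.1 (right_ne_zero_of_mul z))).symm)
    · rfl
  · rw [Gq.k1, KXF, if_pos rfl]
    split_ifs
    · refine (sub_le_self _ (sum_nonneg fun x _ => ?_)).trans ?_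
      · split_ifs
        exacts [le_rfl, mul_nonneg b0 (mul_self_nonneg _)]
      · rw [dk, if_pos rfl, vq]
        split_ifs
        exacts [hz _, h0]
    · exact b1
  · rw [Gq.kf, Gq.k1, KXF, if_pos rfl]
    by_cases e : ν = Finsupp.single (.inl q.x) 1
    · have w : wl ((ν.mapDomain (q.ic c)).mapDomain q.i1) = Finsupp.single (some c, q.x) 1 := by
        ext t; simp [e, Gq.ic, Gq.i1, wl, Finsupp.single_apply]
      have w' : wr ((ν.mapDomain (q.ic c)).mapDomain q.i1) = 0 := by
        ext t; simp [e, Gq.ic, Gq.i1, wr]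
      rw [if_pos e, if_pos ⟨w', w'⟩, sum_eq_zero fun x _ => ?_, sub_zero, dk, if_pos rfl, w, vq,
        if_neg fun z => by simpa using z (some c, q.x)]
      split_ifs with n
      · rfl
      by_contra z
      have z := Kd.sm o (Int.cast_ne_zero.1 (left_ne_zero_of_mul (right_ne_zero_of_mul z)))
      obtain ⟨t, ht⟩ := Finsupp.ne_iff.1 n
      have := Kd.le_md (Kd.rh q) x (.inr t)
      rw [← z, w] at this
      exact ht (Nat.le_zero.1 (this.trans_eq (by simp [Kd.rh])))
    · rw [if_neg e, if_neg fun z => e ?_]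
      obtain ⟨m, su⟩ := mem_filter.1 m
      have x1 : ν (.inl q.x) ≤ 1 := by_contra fun h => o.xx (o.dn _ (mem_filter.1 m).2 _ (by
        rw [← Finsupp.single_add, Finsupp.single_le_iff]
        exact le_trans (by omega) (Kd.le_md q.cl ν (.inl q.x))))
      ext t
      by_cases h : t = .inl q.x
      · subst h; rw [Finsupp.single_eq_same]; omega
      rw [Finsupp.single_eq_of_ne h]
      by_contra n
      obtain ⟨u, -, rfl⟩ := mem_image.1
        ((mem_insert.1 (su (Finsupp.mem_support_iff.2 n))).resolve_left h)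
      have := (Kd.le_md (q.ic c) ν _).trans (Kd.le_md q.i1 _ (q.ic c (.inr (q.ec c u.1, u.2))))
      rw [Gq.ic, if_neg h] at this
      exact n (Nat.le_zero.1 (this.trans_eq (DFunLike.congr_fun z.1 (q.ec c u.1, u.2))))

end Crest.Agent.N49.Su

end
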