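import Crest.Agent.N49.Su.Df2
import Crest.Agent.N49.Su.Kdg
import Crest.Agent.N49.Sw.Star
import Crest.Agent.N49.Sw.Desc
import Crest.Agent.N49.Sw.Dgu
import Crest.Agent.N49.Sw.Xwl

/-!
# Row 49 (helper50): descent of the symmetrised relation (`DSQ`)
-/

set_option autoImplicit false
set_option linter.unusedSectionVars false

open Matrix MvPolynomial Finset

noncomputable section

namespace Crest.Agent.N49.Su

open Po Tw Sd Sw

namespace Dq

theorem ev_ae {V V' : Type} (z : V' → ℝ) (g : V → MvPolynomial V' ℝ) (P : MvPolynomial V ℝ) :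
    eval z (aeval g P) = eval (fun v => eval z (g v)) P := by
  induction P using MvPolynomial.induction_on <;> simp [*, -aeval_eq_bind₁]

variable {σ τ : Type} [Fintype σ] [DecidableEq σ] [DecidableEq τ] {s : ℕ} {T : TS Unit}
  {B : Bk (VV T.C σ) σ} {w : ℝ} {col : τ → σ} {W : Finset (τ →₀ ℕ)} {K K' : Kn τ}

theorem ex_ne {R : Type} [AddCommMonoid R] {ξ : (cE s T B w).Cw (MR col W K) → R}
    {c : T.C ⊕ B.N} {ν : τ →₀ ℕ} (h : ex _ _ (fm s T B w) ξ (c, ν) ≠ 0) : ν ∈ W.erase 0 ∧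
    (∀ F, c = .inl F → ν.degree = T.lev F) ∧ ∀ a, c = .inr a → ν.mapDomain col = B.wd a := by
  obtain ⟨⟨⟨p | a, μ⟩, e⟩, hp, -⟩ := exists_ne_zero_of_sum_ne_zero h
  · obtain ⟨rfl, rfl⟩ := (mem_filter.1 hp).2
    refine ⟨μ.2, fun F k => ?_, fun a k => absurd k Sum.inl_ne_inr⟩
    obtain rfl := Sum.inl.inj k
    exact ((degree_col col _).symm.trans (congrArg Finsupp.degree e)).trans
      ((degree_col _ _).symm.trans (congrArg Finsupp.degree p.2))
  · obtain ⟨rfl, rfl⟩ := (mem_filter.1 hp).2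
    refine ⟨μ.2, fun F k => absurd k Sum.inr_ne_inl, fun a k => ?_⟩
    obtain rfl := Sum.inr.inj k
    exact e

/-- the diagonal configuration on all the universal variables -/
theorem exb {ξ : (UA s T B w).Cw (MR col W K) → ℝ}
    {ξ' : (bar T B w).Cw (MR (fun _ => ()) W K') → ℝ}
    (h : ∀ p, ξ' p = br B univ (ex _ _ (fm s T _ w) ξ) (p.1.1, p.1.2.1)) :
    ex _ _ id ξ' = br B univ (ex _ _ (fm s T _ w) ξ) := by
  funext ⟨c, ν⟩
  by_cases k : ν ∈ W.erase 0 ∧ ν.mapDomain (fun _ => ()) = (bar T B w).deg c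
  · exact (Xl.ex_eq (bar T B w) ξ' ⟨(c, ⟨ν, k.1⟩), k.2⟩).trans (h _)
  refine (sum_eq_zero fun p hp => (k ?_).elim).trans (of_not_not fun z => k ?_)
  · obtain ⟨rfl, rfl⟩ := (mem_filter.1 hp).2
    exact ⟨p.1.2.2, p.2⟩
  · cases c with
    | inl F => exact ⟨(ex_ne (Ne.symm z)).1, Xl.md_iff.2 ((ex_ne (Ne.symm z)).2.1 F rfl)⟩
    | inr a =>
      obtain ⟨x, hx, z⟩ := exists_ne_zero_of_sum_ne_zero (Ne.symm z)
      refine ⟨(ex_ne z).1, Xl.md_iff.2 ?_⟩
      rw [← degree_col col, (ex_ne z).2.2 x rfl, ← (mem_filter.1 hx).2]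
      exact (degree_col _ _).trans (Finsupp.degree_single _ _).symm

theorem br_sbv {C : Type} (B : Bk (VV C σ) σ) (φ : τ → σ → ℤ)
    (z : VV (C ⊕ (sy B univ).N) τ → ℝ) : br B univ (sbv φ W z) = sbv φ W (br B univ z) := by
  funext ⟨c, μ⟩
  cases c with
  | inl F => rfl
  | inr a =>
    exact sum_comm.trans (sum_congr rfl fun ν _ =>
      (mul_sum _ (fun x => z (.inr x, ν)) (smat φ μ ν : ℝ)).symm)

end Dq

open Dq in
theorem dsq (hE : EWQ) : DSQ := by
  intro σ I κ _ _ _ _ _ _ l s M q T st B P w b R κ' K y j o tb ty w0 b0 hκ R0 hb H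
  obtain ⟨e1, e2, e3, e4, -⟩ := hE σ I κ l s q j o
  have md : ∀ μ ν, smat q.r2 μ ν ≠ 0 → μ = ν.mapDomain q.cl := fun μ ν z =>
    Kd.smat_md (A := fun _ => True) (fun t c k _ => by
      by_contra n
      rcases t with t | t
      · exact k (by
          change (if t = q.x then Pi.single t 1 else 0 : σ → ℤ) c = 0
          split_ifs
          exacts [Pi.single_eq_of_ne n _, rfl])
      · exact k (by
          change (if t.2 then -Pi.single (q.kp t.1) 1 else Pi.single (q.kp t.1) 1 : σ → ℤ) c = 0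
          split_ifs
          exacts [neg_eq_zero.2 (Pi.single_eq_of_ne n _), Pi.single_eq_of_ne n _])) _ ν μ rfl z
      fun _ _ => trivial
  have S := star σ _ (q.E j) q.x ((UA s T B w).sh (MR q.cl (q.W' s) (dk κ'))) _ _ R
    (fun π ξ => eval (sbv q.r2 (q.W' s) (ex _ _ (fm s T _ w) ξ)) (ug B univ (gi _ π) (P j)))
    (g1 _) e4 R0 fun π π' t ht n e => by simpa only [map_sub] using H π π' t ht n e
  have le : (3 * #(q.E j) * (#(q.E j)).factorial * R : ℝ) ≤ 3 * s * s.factorial * R := by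
    have : #(q.E j) ≤ s := e2 ▸ e3
    gcongr
  refine desc σ _ s M T st B w _ b univ q.cl (q.W' s) κ' (.inl q.x) _ _ _ _ tb ty.bo
    (fun a => o.dg _ (ty.wd a).1) w0 (fun μ hμ ν k => mem_filter.2 ⟨dn_full _
      (mem_filter.1 hμ).1 _ k, o.dn _ (mem_filter.1 hμ).2 _ (Finsupp.mapDomain_mono k)⟩)
    (fun μ hμ => ⟨ty.sq _ (mem_filter.1 hμ).2, subset_univ _, hκ μ⟩) b0 (by positivity) hb
    (fun p _ => ?_) (fun ξ ξ' h1 _ h3 => ?_) (S.imp fun _ k => ⟨k.1, fun ξ a =>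
      (k.2 ξ a).trans (mul_le_mul_of_nonneg_right le (Real.sqrt_nonneg _))⟩)
  · obtain ⟨⟨F | a, μ⟩, e⟩ := p
    · exact Int.cast_sum _ _
    · exact (Int.cast_sum _ _).trans (sum_congr rfl fun x _ => Int.cast_sum _ _)
  have x := exb fun p => h3 p fun _ _ => subset_univ _
  refine congrArg₂ (· - ·) (congrArg₂ (· * ·) (by rw [e2]) ?_) ?_
  · rw [sbq, ev_ae, ug, eval_rename]
    refine congrArg (eval · (P j)) (funext ?_)
    rintro (v | a)
    · simp only [Sum.elim_inl, map_sum, smul_eval, eval_X, x]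
      exact congrArg (fun μ => ∑ ν ∈ q.W' s, (smat q.r2 μ ν : ℝ) *
        ex _ _ (fm s T _ w) ξ (.inl v.1, ν)) (Finsupp.mapDomain_id (v := v.2))
    · simp only [Sum.elim_inr, map_sum, smul_eval, eval_X]
      have kx : ∀ ν : σ ⊕ κ × Bool →₀ ℕ, ν.mapDomain q.cl = B.wd a →
          ((ex _ _ (fm s T _ w) y (.inr (syn B univ (g1 univ) a), ν) : ℤ) : ℝ) =
            ex _ _ (fm s T _ w) ξ (.inr (syn B univ (g1 univ) a), ν) := fun ν k =>
        (Int.cast_sum _ _).trans (sum_congr rfl fun p hp => (h1 p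
          ((congrArg (· (.inl q.x)) (mem_filter.1 hp).2.2).trans (Nat.le_zero.1
            ((Kd.le_md q.cl ν (.inl q.x)).trans (k ▸ (ty.wd a).2.le))))).symm)
      have mf : ∀ x : (sp B q.cl (q.W' s)).N, x ∈ univ.filter (fun x => x.1.1 = a) → x.1.1 = a :=
        fun x hx => (mem_filter.1 hx).2
      refine (congrArg (fun μ => ∑ ν ∈ q.W' s, (smat q.r2 μ ν : ℝ) *
        ex _ _ (fm s T _ w) ξ (.inr (syn B univ (g1 univ) a), ν))
        (Finsupp.mapDomain_id (v := B.wd a))).trans (sum_bij_ne_zero (fun x _ _ => x.1.2.1)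
          (fun x _ _ => mem_of_mem_erase x.1.2.2) (fun x hx _ x' hx' _ e => Subtype.ext (Prod.ext
            ((mf x hx).trans (mf x' hx').symm) (Subtype.ext e)))
          (fun ν hν z => ?_) fun x hx _ => ?_).symm
      · have k2 := (md _ _ (Int.cast_ne_zero.1 (left_ne_zero_of_mul z))).symm
        exact ⟨⟨(a, ⟨ν, (ex_ne (right_ne_zero_of_mul z)).1⟩), k2⟩, mem_filter.2 ⟨mem_univ _, rfl⟩,
          fun z' => z ((congrArg _ (kx ν k2).symm).trans z'), rfl⟩
      · obtain rfl := mf x hx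
        exact congrArg _ (kx _ x.2)
  · refine (dgu.2 σ T B (q.E j) _ (P j) ty.bo (fun F => (tb.ok.toTri.lev_pos F).ne') (fun F μ z => ?_)
      (fun a μ z => ?_) (e1 ▸ ty.hom j) (ty.live j)).trans (congrArg₂ _ e1
        ((br_sbv B _ _).trans (congrArg _ x.symm)))
    · obtain ⟨ν, -, z⟩ := exists_ne_zero_of_sum_ne_zero z
      exact (congrArg Finsupp.degree (md μ ν (Int.cast_ne_zero.1 (left_ne_zero_of_mul z)))).trans
        ((degree_col _ _).trans ((ex_ne (right_ne_zero_of_mul z)).2.1 F rfl))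
    · obtain ⟨ν, -, z⟩ := exists_ne_zero_of_sum_ne_zero z
      exact (md μ ν (Int.cast_ne_zero.1 (left_ne_zero_of_mul z))).trans
        ((ex_ne (right_ne_zero_of_mul z)).2.2 a rfl)

end Crest.Agent.N49.Su

end
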