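import Crest.Agent.N49.Su.Df2
import Crest.Agent.N49.Sw.Desc

/-!
# Row 49 (helper68): the errors of the diagonal words (`PERR`)
-/

set_option autoImplicit false

open Matrix MvPolynomial Finset

noncomputable section

namespace Crest.Agent.N49.Su

open Po Tw Sd Sw

theorem perr : PERR := by
  intro σ τ _ _ _ s M T st B w R col W K y h hB _ _ hW R0 k a μ m d
  let ξ : De.DD s T B w univ col W (fun _ => 0) → ℝ := zc y
  have e : (fun v => (yq s T B w col W K y v : ℝ)) = ex _ _ (De.fg s T B w univ) ξ := by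
    rw [← De.br_eq]
    funext ⟨c, ν⟩
    rcases c with F | a
    · exact Int.cast_sum _ _
    · exact (Int.cast_sum _ _).trans (sum_congr rfl fun x _ => Int.cast_sum _ _)
  let μ0 : Sh.MW W := ⟨μ, mem_erase.2 ⟨fun z => hB.ok.ne a ((Finsupp.degree_eq_zero_iff _).1
    (by rw [← d, z, map_zero])), m⟩⟩
  let q : De.DE T B w W (fun _ => 0) := ⟨(.inr a, μ0), unit_ext
    ((degree_col _ _).trans (d.trans (Finsupp.degree_single _ _).symm))⟩
  have e0 : ex T _ id (zc (res s T _ w col W K y)) = ex T _ id (res s T _ w col W _ ξ) :=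
    funext fun v => sum_congr rfl fun p _ => Int.cast_sum _ _
  rw [e0] at k
  have k' : ∀ x, |ξ ⟨(.inr x.1.1, x.1.2), x.2⟩ - De.Ev ξ x| ≤ R := fun x =>
    (abs_sub_comm _ _).trans_le (k x)
  have e1 := De.sum_Ev h.ok hB ξ a μ0 (subset_univ _) (hW μ m) (subset_univ _) d
  have e2 := (congrFun e (.inr a, μ)).trans ((De.ps_eq ξ q).symm.trans (De.ps_new ξ a μ0 q.2))
  refine (congrArg abs ((congrArg₂ (· - ·) e2 ((congrArg _ e).trans e1.symm)).trans
    (sum_sub_distrib _ _).symm)).trans_le ((abs_sum_le_sum_abs _ _).trans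
      ((sum_le_card_nsmul _ _ R fun x _ => k' x).trans ?_))
  rw [nsmul_eq_mul]
  refine mul_le_mul_of_nonneg_right (Nat.cast_le.2 (card_le_card_of_injOn (fun x => x.1.1)
    (fun _ _ => mem_univ _) fun x hx x' hx' e => ?_)) R0
  exact Subtype.ext (Prod.ext e ((mem_filter.1 hx).2.2.trans (mem_filter.1 hx').2.2.symm))

end Crest.Agent.N49.Su

end
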