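import Crest.Agent.N49.Su.Df2
import Crest.Agent.N49.Sw.Enl
import Crest.Agent.N49.Sw.Sbc

/-!
# Row 49 (helper47): the point and the brackets at the point
-/

set_option autoImplicit false
set_option linter.unusedSectionVars false

open Matrix MvPolynomial Finset

noncomputable section

namespace Crest.Agent.N49.Su

open Po Tw Sd Sw

namespace Pq

theorem ex_zc {σ τ C : Type} [DecidableEq σ] [DecidableEq τ] [DecidableEq C] (U : TS σ)
    (S : Sh σ τ) (f : U.C → C) (y : U.Cw S → ℤ) (v : VV C τ) :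
    ((ex U S f y v : ℤ) : ℝ) = ex U S f (zc y) v := Int.cast_sum _ _

theorem ex_at {σ τ R : Type} [DecidableEq σ] [DecidableEq τ] [AddCommMonoid R] (U : TS σ)
    (col : τ → σ) (W : Finset (τ →₀ ℕ)) (K : Kn τ) (y : U.Cw (MR col W K) → R)
    (p : U.Cw (MR col W K)) : ex U _ id y (p.1.1, p.1.2.1) = y p :=
  sum_eq_single_of_mem p (mem_filter.2 (And.intro (mem_univ _) (And.intro rfl rfl))) fun _ hq n =>
    absurd (Subtype.ext (Prod.ext (mem_filter.1 hq).2.1 (Subtype.ext (mem_filter.1 hq).2.2))) n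

variable {σ τ : Type} [Fintype σ] [DecidableEq σ] [DecidableEq τ] (s : ℕ) (T : TS Unit)
  (B : Bk (VV T.C σ) σ) (w : ℝ) (col : τ → σ) (W : Finset (τ →₀ ℕ)) (K : Kn τ)

theorem ex_inl (y : (cE s T B w).Cw (MR col W K) → ℤ) (F : T.C) (μ : τ →₀ ℕ) :
    ex _ _ (fm s T B w) y (.inl F, μ) = ex T _ id (res s T B w col W K y) (F, μ) := by
  refine Int.cast_injective (α := ℝ) ?_
  rw [ex_zc, ex_zc, Tf.ex_eq, Tf.zc_res]
  rfl

theorem ex_inr (y : (cE s T B w).Cw (MR col W K) → ℤ) (a : B.N) (μ : τ →₀ ℕ) :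
    ex _ _ (fm s T B w) y (.inr a, μ) = Tf.vb B col W (nw s T B w col W K y) a μ := by
  refine Int.cast_injective (α := ℝ) ?_
  rw [ex_zc, Tf.ex_eq]
  exact (Tf.map_vb B col W (fun n : ℤ => (n : ℝ)) Int.cast_zero (nw s T B w col W K y) a μ).symm

theorem inr_ne {y : (cE s T B w).Cw (MR col W K) → ℤ} {a : B.N} {μ : τ →₀ ℕ}
    (h : ex _ _ (fm s T B w) y (.inr a, μ) ≠ 0) : μ ∈ W.erase 0 ∧ μ.mapDomain col = B.wd a := by
  by_contra k
  exact h ((ex_inr s T B w col W K y a μ).trans (dif_neg k))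

theorem wd1 (a : B.N) : (sy B univ).wd (syn B univ (g1 univ) a) = B.wd a :=
  (Pe.wd_syn _ a).trans Finsupp.mapDomain_id

theorem th1 (h : B.Ok Prod.snd) (a : B.N) : (sy B univ).Θ (syn B univ (g1 univ) a) =
    rename (Sum.map id (syn B univ (g1 univ))) (B.Θ a) :=
  (Pe.Θ_syn h _ a).trans (congrArg (rename · _) (funext (by
    rintro (v | b)
    exacts [congrArg Sum.inl (Prod.ext rfl Finsupp.mapDomain_id), rfl])))

theorem kq_eq (y : (UA s T B w).Cw (MR col W K) → ℤ) (x : (sp B col W).N) :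
    kq s T B w col W K y x = nw s T _ w col W K y (Enl.jw (wd1 T B) col W x) :=
  (ex_inr s T _ w col W K y _ _).trans (dif_pos ⟨x.1.2.2, x.2.trans (wd1 T B _).symm⟩)

end Pq

open Pq in
theorem ptq : PTQ := by
  intro σ I κ _ _ _ _ _ _ l s M q T st B P w K0 K y _ _ hP
  have hc : ∀ a a', q.r0 (fun _ => false) a a' ≠ 0 → q.cl a = id a' := by
    rintro (a | a) a' h
    · by_contra k
      exact h (Pi.single_eq_of_ne (fun e => k e.symm) _)
    · by_contra k
      refine h ?_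
      change (if _ then _ else (0 : σ → ℤ)) a' = 0
      split_ifs
      exacts [Pi.single_eq_of_ne (fun e => k e.symm) _, rfl]
  refine ⟨funext fun p => ?_, fun a => ?_, fun F μ => ex_inl s T _ w _ _ K y F μ, ?_,
    fun o => ⟨fun x => o (Enl.jw (wd1 T B) _ _ x), fun y h x => ?_⟩⟩
  · refine Int.cast_injective (α := ℝ) ?_
    refine (ex_zc _ _ _ _ _).trans ((Sb.ex_hs _ hc y _ (Sh.MW.mem p.1.2)).trans ?_)
    refine Eq.trans ?_ (congrArg _ (ex_at T _ _ _ _ p))
    refine Eq.trans ?_ ((ex_zc _ _ _ _ _).trans (Sb.ex_hs (U := T) (col := fun _ => ())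
      (col' := fun _ => ()) id (fun _ _ _ => rfl) _ _ (Sh.MW.mem p.1.2))).symm
    refine sum_congr rfl fun μ _ => congrArg _ ?_
    exact (ex_zc _ _ _ _ _).symm.trans ((congrArg _ (ex_inl s T _ w _ _ K y _ μ)).trans
      (ex_zc _ _ _ _ _))
  · refine Int.cast_injective (α := ℝ) ?_
    refine (ex_zc _ _ _ _ _).trans ((Sb.ex_hs _ hc y _ (hP.wd a).1).trans (Eq.symm ?_))
    rw [Int.cast_sum]
    refine sum_of_injOn (fun x : (sp B q.cl (q.W' s)).N => x.1.2.1) (fun x hx x' hx' e => ?_)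
      (fun x _ => Sh.MW.mem x.1.2) (fun μ _ n => ?_) fun x hx => ?_
    · exact Subtype.ext (Prod.ext ((mem_filter.1 hx).2.trans (mem_filter.1 hx').2.symm)
        (Subtype.ext e))
    · refine mul_eq_zero_of_right _ ((ex_zc _ _ _ _ _).symm.trans (Int.cast_eq_zero.2 ?_))
      by_contra k
      obtain ⟨k1, k2⟩ := inr_ne s T _ w _ _ K k
      exact n ⟨⟨(a, ⟨μ, k1⟩), k2.trans (wd1 T B a)⟩, mem_filter.2 ⟨mem_univ _, rfl⟩, rfl⟩
    · obtain rfl : x.1.1 = a := (mem_filter.1 hx).2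
      rw [Int.cast_mul]
      exact congrArg _ (ex_zc _ _ _ _ _)
  · rintro (F | a) μ h
    · obtain ⟨p, hp, -⟩ := exists_ne_zero_of_sum_ne_zero
        (fun z => h ((ex_inl s T _ w _ _ K y F μ).trans z))
      obtain ⟨rfl, rfl⟩ := (mem_filter.1 hp).2
      exact ⟨Sh.MW.mem p.1.2, (Finsupp.degree_mapDomain _ _).symm.trans (congrArg _ p.2)⟩
    · obtain ⟨x, hx, k⟩ := exists_ne_zero_of_sum_ne_zero h
      obtain ⟨k1, k2⟩ := inr_ne s T _ w _ _ K k
      obtain rfl : x.1.1 = a := (mem_filter.1 hx).2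
      refine ⟨mem_of_mem_erase k1, (Finsupp.degree_mapDomain _ _).symm.trans
        ((congrArg _ k2).trans ((Finsupp.degree_mapDomain _ _).trans ?_))⟩
      exact (Finsupp.degree_single _ _).symm
  · have e := h (Enl.jw (wd1 T B) _ _ x)
    rw [Enl.Θ_jw (wd1 T B) _ _ (th1 T B hP.bo.ok), eval_rename] at e
    simp only [kq_eq]
    refine le_of_eq_of_le (congrArg (fun f => |eval f _ - _ - _|) (funext ?_)) e
    rintro (v | z) <;> rfl

end Crest.Agent.N49.Su

end
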