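import Crest.Agent.N49.Su.Defs
import Crest.Agent.N49.Sw.Altf
import Crest.Agent.N49.Sw.Sbc
import Crest.Agent.N49.Sw.Prod
import Crest.Agent.N49.Sw.Cola
import Crest.Agent.N49.Sw.Colw1
import Crest.Agent.N49.Sw.Box

/-!
# Row 49 (helper19): the vertices and the alternating sums of the fat cube (leaf `ALG`)
-/

set_option autoImplicit false
set_option linter.unusedSectionVars false

open Matrix MvPolynomial Finset

noncomputable section

namespace Crest.Agent.N49.Su

open Po Tw Sd Sw Tw.Sh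

namespace Ag

section gen
variable {C τ τ' τ0 : Type} [Fintype τ0]

theorem smat_congr {φ φ' : τ → τ0 → ℤ} (ν : τ0 →₀ ℕ) {μ : τ →₀ ℕ}
    (h : ∀ a ∈ μ.support, φ a = φ' a) : smat φ ν μ = smat φ' ν μ := by
  rw [smat, smat, lsub, lsub, aeval_monomial, aeval_monomial,
    Finsupp.prod_congr fun a ha => by rw [h a ha]]

theorem Sub.comp {τ'' : Type} [Fintype τ'] {ι : τ' → τ} {ι' : τ'' → τ'} {S : Finset τ''}
    {W : Finset (τ →₀ ℕ)} {W' : Finset (τ' →₀ ℕ)} {W'' : Finset (τ'' →₀ ℕ)} (h : Sub ι univ W W')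
    (h' : Sub ι' S W' W'') : Sub (ι ∘ ι') S W W'' :=
  ⟨h.inj.comp h'.inj, fun ν => by rw [h'.mem, h.mem, Finsupp.mapDomain_comp]; simp⟩

theorem sbv_sub {ι : τ' → τ} {S : Finset τ'} {W : Finset (τ →₀ ℕ)} {W' : Finset (τ' →₀ ℕ)}
    (h : Sub ι S W W') {φ : τ → τ0 → ℤ} {φ' : τ' → τ0 → ℤ} (e : ∀ b ∈ S, φ (ι b) = φ' b) {c : C}
    {ν : τ0 →₀ ℕ} (k : ∀ μ, smat φ ν μ ≠ 0 → ∀ a, μ a ≠ 0 → ∃ b ∈ S, ι b = a)
    {z : VV C τ → ℝ} {z' : VV C τ' → ℝ} (hz : ∀ μ ∈ W', z' (c, μ) = z (c, μ.mapDomain ι)) :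
    sbv φ W z (c, ν) = sbv φ' W' z' (c, ν) := by
  refine (sum_of_injOn (Finsupp.mapDomain ι) (Finsupp.mapDomain_injective h.inj).injOn
    (fun μ m => ((h.mem μ).1 m).1) (fun μ m n => ?_) fun μ m => ?_).symm
  · refine mul_eq_zero_of_left (Int.cast_eq_zero.2 (of_not_not fun z => n ?_)) _
    have r : (μ.comapDomain ι h.inj.injOn).mapDomain ι = μ :=
      Finsupp.mapDomain_comapDomain ι h.inj μ fun a ha =>
        (k μ z a (Finsupp.mem_support_iff.1 ha)).imp fun _ => And.right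
    refine ⟨_, mem_coe.2 ((h.mem _).2 ⟨r.symm ▸ m, fun b hb => ?_⟩), r⟩
    obtain ⟨b', m', e'⟩ := k μ z (ι b) (Finsupp.mem_support_iff.1 hb :
      μ.comapDomain ι h.inj.injOn b ≠ 0)
    exact h.inj e' ▸ m'
  · rw [hz μ m, Bx.smat_ren, smat_congr (φ := φ ∘ ι) ν fun a ha => e a (((h.mem μ).1 m).2 ha)]

theorem cj_ee {l : ℕ} (t : (Fin l → Bool) → ℝ) :
    ∏ ω, cj ω (ee (t ω)) = ee (∑ ω, (-1) ^ #{i | ω i = true} * t ω) := by
  have a : ∀ (s : Finset (Fin l → Bool)) (u : (Fin l → Bool) → ℝ),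
      ∏ ω ∈ s, ee (u ω) = ee (∑ ω ∈ s, u ω) := fun s u => by
    induction s using Finset.induction_on with
    | empty => simp [ee_zero]
    | insert a s h ih => rw [prod_insert h, sum_insert h, ee_add, ih]
  rw [← a]
  refine prod_congr rfl fun ω _ => ?_
  unfold cj
  split_ifs with k
  · rw [k.neg_one_pow, one_mul]
  · rw [(Nat.not_even_iff_odd.1 k).neg_one_pow, ee, ee, ← Complex.exp_conj]
    simp [Complex.conj_ofReal, map_ofNat]

theorem ex_self {σ τ R : Type} [DecidableEq σ] [DecidableEq τ] [AddCommMonoid R] {U : TS σ}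
    {col : τ → σ} {W : Finset (τ →₀ ℕ)} {K : Kn τ} (y : U.Cw (MR col W K) → R)
    (p : U.Cw (MR col W K)) : ex U _ id y (p.1.1, (p.1.2 : MW W).1) = y p :=
  sum_eq_single_of_mem p (mem_filter.2 ⟨mem_univ _, rfl, rfl⟩) fun _ hb n =>
    (n (Subtype.ext (Prod.ext (mem_filter.1 hb).2.1 (Subtype.ext (mem_filter.1 hb).2.2)))).elim

theorem sbp_hom {C σ τ : Type} [Fintype σ] {φ : τ → σ → ℤ} {col : τ → σ}
    (hc : ∀ a t, φ a t ≠ 0 → col a = id t) (W : Finset (τ →₀ ℕ)) {G : MvPolynomial (VV C σ) ℝ}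
    {w : σ →₀ ℕ} (hG : G.IsWeightedHomogeneous Prod.snd w) :
    (sbp φ W G).IsWeightedHomogeneous (fun v => Finsupp.mapDomain.addMonoidHom col v.2) w :=
  Ca.hom_ae (AddMonoidHom.id _) hG fun v => IsWeightedHomogeneous.sum _ _ _ fun μ _ => by
    by_cases z : smat φ v.2 μ = 0
    · rw [z, Int.cast_zero, zero_smul]; exact isWeightedHomogeneous_zero _ _ _
    · have e : μ.mapDomain col = v.2 := (smat_col hc z).symm.trans Finsupp.mapDomain_id
      rw [smul_eq_C_mul, X, C_mul_monomial]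
      exact isWeightedHomogeneous_monomial _ _ _
        ((Finsupp.weight_single _ _ _).trans ((one_smul _ _).trans e))

end gen

variable {σ I κ : Type} [Fintype σ] [DecidableEq σ] [Fintype I] [DecidableEq I] [Fintype κ]
  [DecidableEq κ] {l s : ℕ} {q : Gq σ I κ l}

variable (q) in
/-- the vertex `ω` seen from the copy `o` -/
def ph (o : Option I) (ω : Fin l → Bool) : (Option I × σ) ⊕ κ × Bool → σ → ℤ :=
  Sum.elim (pr o) fun i => if i.2 = ω (q.bl i.1) then fun t => q.lam i.1 (o, t) else 0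

/-- the colours of the cube -/
abbrev cX (q : Gq σ I κ l) : (Option I × σ) ⊕ κ × Bool → σ :=
  Sum.elim (id ∘ Prod.snd) fun i => q.kp i.1

theorem pr_col (o : Option I) (a : Option I × σ) (t : σ) (h : pr o a t ≠ 0) : a = (o, t) := by
  unfold pr at h
  split_ifs at h with k
  · exact Prod.ext k (of_not_not fun e => h (Pi.single_eq_of_ne' e _))
  · exact absurd rfl h

theorem lam_ne {k : κ} {t : Option I × σ} (h : q.lam k t ≠ 0) : t.2 = q.kp k ∧ q.on t.1 k :=
  of_not_not fun n => h (if_neg n)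

theorem ph_col (o : Option I) (ω : Fin l → Bool) (a : (Option I × σ) ⊕ κ × Bool) (t : σ)
    (h : ph q o ω a t ≠ 0) : cX q a = id t := by
  obtain a | a := a
  · rw [pr_col o a t h]; rfl
  · change (if _ then _ else 0 : σ → ℤ) t ≠ 0 at h
    split_ifs at h
    exacts [(lam_ne h).1.symm, absurd rfl h]

theorem hs_pr {U : TS σ} {κ0 b : ℝ} {κz : (σ →₀ ℕ) → ℝ} (K : Kn σ) (o : Option I)
    (ω : Fin l → Bool) (y : U.Cw (q.CQ s κz κ0 b) → ℤ) : hs U (MR id q.W K) (pr o)
      (hs U (MR (id ∘ Prod.snd) q.WQ (dk (vq κz κ0))) (fwF q.bl q.lam ω) y) =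
      hs U (MR id q.W K) (ph q o ω) y := by
  refine (Sb.hs_hs (fun ν hν μ z => Pd.mem_WP.2 ⟨o, ν, hν, (Pd.smat_wd o ν μ z).symm⟩)
    (fun a t h => by rw [pr_col o a t h]; rfl) y).trans
    (congrArg (fun φ => hs U (MR id q.W K) φ y) (funext fun a => funext fun t => ?_))
  rw [sum_eq_single (o, t) (fun b _ n => mul_eq_zero_of_right _
    (of_not_not fun z => n (pr_col o b t z))) (by simp), show pr o (o, t) t = 1 by simp [pr], mul_one]
  obtain ⟨o', t'⟩ | a := a
  · by_cases e : o' = o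
    · simp [fwF, ph, pr, Pi.single_apply, e]
    · simp [fwF, ph, pr, e, Ne.symm e]
  · change (if _ then _ else 0 : Option I × σ → ℤ) (o, t) = (if _ then _ else 0 : σ → ℤ) t
    split_ifs <;> rfl

theorem e_inj (h : q.Ok s) (c : I) : Function.Injective fun i => q.kp (q.ec c i) := fun i j e =>
  (h.ec c i).symm.trans ((congrArg q.bl (h.inj e)).trans (h.ec c j))

theorem w_apply (h : q.Ok s) (c : I) (t : σ) : q.w (q.ec c) t =
    if t = q.x ∨ ∃ i, q.kp (q.ec c i) = t then 1 else 0 := by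
  rw [Gq.w, Finsupp.add_apply, Finsupp.finsetSum_apply]
  by_cases k : ∃ i, q.kp (q.ec c i) = t
  · obtain ⟨i, rfl⟩ := k
    rw [if_pos (.inr ⟨i, rfl⟩), Finsupp.single_eq_of_ne (h.x _), sum_eq_single i (fun j _ n =>
      Finsupp.single_eq_of_ne fun e => n (e_inj h c e).symm) (by simp), Finsupp.single_eq_same]
  · rw [sum_eq_zero fun i _ => Finsupp.single_eq_of_ne fun e => k ⟨i, e.symm⟩, add_zero,
      Finsupp.single_apply]
    exact if_congr ⟨fun e => .inl e.symm, fun e => (e.resolve_right k).symm⟩ rfl rfl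

theorem r1_col (a : σ ⊕ κ × Bool) (t : σ) (h : q.r1 a t ≠ 0) : q.cl a = id t := by
  refine of_not_not fun n => h ?_
  obtain a | ⟨k, b⟩ := a
  · exact Pi.single_eq_of_ne' n _
  · have : (Pi.single (q.kp k) 1 : σ → ℤ) t = 0 := Pi.single_eq_of_ne' n _
    cases b <;> simp [Gq.r1, this]

theorem sbp_x (h : q.Ok s) {C : Type} {c : I} (W : Finset (σ ⊕ κ × Bool →₀ ℕ))
    {G : MvPolynomial (VV C σ) ℝ} (hG : G.IsWeightedHomogeneous Prod.snd (q.w (q.ec c)))
    {μ : VV C (σ ⊕ κ × Bool) →₀ ℕ} (hμ : μ ∈ (sbp q.r1 W G).support) :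
    Finsupp.weight Prod.snd μ (.inl q.x) = 1 := by
  have e : (Finsupp.weight Prod.snd μ).mapDomain q.cl = q.w (q.ec c) :=
    (weight_hom (Finsupp.mapDomain.addMonoidHom q.cl) Prod.snd μ).symm.trans
      (sbp_hom r1_col W hG (mem_support_iff.1 hμ))
  have e' := (DFunLike.congr_fun e q.x).trans ((w_apply h c _).trans (if_pos (.inl rfl)))
  rw [Cw1.md_apply, sum_eq_single (.inl q.x) (fun t _ n => if_neg fun e => n ?_) fun n =>
    ite_eq_right_iff.2 fun _ => Finsupp.notMem_support_iff.1 n] at e'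
  · exact (if_pos rfl).symm.trans e'
  · obtain t | t := t
    exacts [congrArg _ e, absurd e (h.x _)]

end Ag

open Ag

theorem alg (hE : EXQ) (hW : WRD) : ALG := by
  intro σ I κ C _ _ _ _ _ _ _ l s q U fm κ0 b κz K K' y h _
  obtain ⟨w1, w2, -, -, w5⟩ := hW σ I κ l s q h
  refine ⟨fun ω => ?_, fun c G hG => ⟨fun μ hμ => ?_, ?_⟩⟩
  · have E := fun R [AddCommMonoid R] => hE.2 σ _ _ U.C R U id (cX q) (WXF q.bl s (q.Wt s) l)
      (KXF q.bl s (q.Wt s) (dk (vq κz κ0)) q.lam fun _ => b) q.cl (q.W' s) K' (q.i1 ∘ .inl)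
      (by rintro (a | a) <;> rfl) (Ag.Sub.comp w1 w2).inj
    rw [hs_pr]
    funext p
    refine Int.cast_injective (α := ℝ) (((ex_self (zc _) p).symm.trans ?_).trans (ex_self (zc _) p))
    refine (Sb.ex_hs id (ph_col none ω) y _ (MW.mem p.1.2)).trans (Eq.trans ?_
      (Sb.ex_hs id (φ := q.r0 ω) (fun a t k => of_not_not fun n => k ?_) _ _ (MW.mem p.1.2)).symm)
    · refine sbv_sub (Ag.Sub.comp w1 w2) (fun a _ => ?_) (fun μ z a k => ?_) fun μ m => ?_
      · obtain a | ⟨k, β⟩ := a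
        · exact (if_pos rfl : pr (none : Option I) (none, a) = Pi.single a 1)
        · refine if_congr Iff.rfl (funext fun t => ?_) rfl
          simp [Gq.lam, Gq.on, Pi.single_apply]
      · obtain ⟨o, t⟩ | a := a
        · obtain rfl : o = none := of_not_not fun n => k (Bx.smat_zero z (if_neg n))
          exact ⟨.inl t, mem_univ _, rfl⟩
        · exact ⟨.inr a, mem_univ _, rfl⟩
      · exact (congrArg (fun u => ex U _ id u _) ((E ℤ).2.2.1 y)).trans ((E ℝ).1 _ _ μ m)
    · obtain a | a := a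
      · exact Pi.single_eq_of_ne' n _
      · change (if _ then _ else 0 : σ → ℤ) t = 0
        split_ifs
        exacts [Pi.single_eq_of_ne' n _, rfl]
  · exact sbp_x h _ hG hμ
  · have sb := Ag.Sub.comp w1 (w5 c).1
    have E := fun R [AddCommMonoid R] => hE.2 σ _ _ C R U fm (cX q) (WXF q.bl s (q.Wt s) l)
      (KXF q.bl s (q.Wt s) (dk (vq κz κ0)) q.lam fun _ => b) q.cl (q.We s (q.ec c)) K'
      (q.i1 ∘ q.ic c) (fun a => by
        by_cases e : a = .inl q.x
        · rw [e, Function.comp, Gq.ic, if_pos rfl]; rfl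
        · rw [Function.comp, Gq.ic, if_neg e]; obtain a | a := a <;> rfl) sb.inj
    have ev : ∀ z z' : VV C σ → ℝ, (∀ F, ∀ ν ≤ q.w (q.ec c), z (F, ν) = z' (F, ν)) →
        eval z G = eval z' G := fun z z' k =>
      eval₂Hom_congr' rfl (fun v hv _ => k v.1 v.2 (wt_le hG hv)) rfl
    rw [cj_ee, hE.1]
    refine congrArg ee (Eq.trans (sum_congr rfl fun ω _ => congrArg (_ * ·) ?_)
      ((altf _ σ κ C l q.bl (fun i => q.kp (q.ec c i)) (pr (some c)) (fun k t => q.lam k (some c, t))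
        (WXF q.bl s (q.Wt s) l) (ex U _ fm (zc y)) _ G (e_inj h c) (fun k t z => (lam_ne z).1.trans
          (congrArg q.kp ((lam_ne z).2 c rfl).symm)) hG
        fun i => (w_apply h c _).trans (if_pos (.inr ⟨i, rfl⟩))).trans (ev _ _ fun F ν hν => ?_)))
    · rw [hs_pr]
      exact ev _ _ fun F ν hν => Sb.ex_hs fm (ph_col (some c) ω) y F (h.dn _ (h.w c) _ hν)
    refine sbv_sub sb (fun a ha => ?_) (fun μ z a k => ?_) fun μ m =>
      (congrArg (fun u => ex U _ fm u _) ((E ℤ).2.2.1 y)).trans ((E ℝ).1 _ _ μ m)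
    · obtain rfl | ha := mem_insert.1 ha
      · rw [Function.comp, Gq.ic, if_pos rfl]
        funext t
        change (if _ then 0 else pr (some c) (some c, q.x) t) = (Pi.single q.x 1 : σ → ℤ) t
        split_ifs with k
        · obtain ⟨i, rfl⟩ := k
          exact (Pi.single_eq_of_ne (M := fun _ => ℤ) (h.x (q.ec c i)) 1).symm
        · exact congrFun (if_pos rfl) t
      · obtain ⟨⟨i, β⟩, -, rfl⟩ := mem_image.1 ha
        rw [Function.comp, Gq.ic, if_neg Sum.inr_ne_inl]
        have : (fun t => q.lam (q.ec c i) (some c, t)) = Pi.single (q.kp (q.ec c i)) 1 :=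
          funext fun t => by simp [Gq.lam, Gq.on, Pi.single_apply, h.ec]
        exact congrArg (fun u : σ → ℤ => if β then -u else u) this
    · have n := fun e => k (Bx.smat_zero z (a := a) e)
      obtain ⟨o, t⟩ | ⟨j, β⟩ := a
      · obtain ⟨t', n'⟩ := Function.ne_iff.1 n
        change (if _ then 0 else pr (some c) (o, t) t') ≠ 0 at n'
        split_ifs at n' with r
        · exact absurd rfl n'
        obtain ⟨rfl, rfl⟩ := Prod.mk.inj (pr_col _ _ _ n')
        have e := smat_col (col := cX q) (col' := id) (fun a t k => by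
          obtain a | ⟨j, β⟩ := a
          · change (if _ then 0 else pr (some c) a t) ≠ 0 at k
            split_ifs at k
            · exact absurd rfl k
            · rw [pr_col _ _ _ k]; rfl
          · refine ((lam_ne (t := (some c, t)) fun e => k ?_).1).symm
            cases β <;> simp [e]) z
        have a1 := (Cw1.le_md (cX q) μ (.inl (some c, t))).trans_eq
          (DFunLike.congr_fun (e.symm.trans Finsupp.mapDomain_id) t)
        have a2 := (Nat.pos_of_ne_zero k).trans_le (a1.trans (hν t))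
        rw [w_apply h] at a2
        obtain rfl : t = q.x := (of_not_not fun n => by rw [if_neg n] at a2; exact a2.false :
          t = q.x ∨ ∃ i, q.kp (q.ec c i) = t).resolve_right r
        exact ⟨.inl q.x, mem_insert_self _ _, by rw [Function.comp, Gq.ic, if_pos rfl]; rfl⟩
      · have o : q.ec c (q.bl j) = j := of_not_not fun e => n (funext fun t => by
          have : q.lam j (some c, t) = 0 := if_neg fun z => e (z.2 c rfl)
          cases β <;> simp [this])
        exact ⟨.inr (j, β), mem_insert_of_mem (mem_image.2 ⟨(q.bl j, β), mem_univ _, by rw [o]⟩),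
          by rw [Function.comp, Gq.ic, if_neg Sum.inr_ne_inl]; rfl⟩

end Crest.Agent.N49.Su

end
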