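import Crest.Agent.N49.Su.Defs
import Crest.Agent.N49.Sw.Cubf2

/-!
# Row 49 (helper76): the data of the cube (leaf `CBQ`)
-/

set_option autoImplicit false
set_option linter.unusedSectionVars false

open Matrix MvPolynomial Finset

noncomputable section

namespace Crest.Agent.N49.Su

open Po Tw Sd Sw

namespace Cq

/-- every letter of a word that contributes hits a letter of the image -/
theorem smat_sup {τ τ' : Type} [Fintype τ'] [DecidableEq τ'] {φ : τ → τ' → ℤ} {ν : τ' →₀ ℕ}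
    {μ : τ →₀ ℕ} (z : smat φ ν μ ≠ 0) {a : τ} (h : μ a ≠ 0) : ∃ b, ν b ≠ 0 ∧ φ a b ≠ 0 := by
  by_contra c
  push Not at c
  obtain ⟨μ', rfl⟩ := exists_add_of_le (Finsupp.single_le_iff.2 (Nat.one_le_iff_ne_zero.2 h))
  refine z ?_
  have e : (monomial (Finsupp.single a 1 + μ') 1 : MvPolynomial τ ℤ) = X a * monomial μ' 1 := by
    rw [X, monomial_mul, mul_one]
  rw [smat, e, map_mul, lsub, aeval_X, sum_mul, coeff_sum]
  refine sum_eq_zero fun b _ => ?_
  rw [smul_mul_assoc, coeff_smul, coeff_X_mul']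
  split_ifs with k
  · rw [c b (Finsupp.mem_support_iff.1 k), zero_smul]
  · rw [smul_zero]

theorem md_ne {α β : Type} {f : α → β} {μ : α →₀ ℕ} {t : β} (h : μ.mapDomain f t ≠ 0) :
    ∃ a, μ a ≠ 0 ∧ f a = t := by
  classical
  obtain ⟨a, k, e⟩ := mem_image.1 (Finsupp.mapDomain_support (Finsupp.mem_support_iff.2 h))
  exact ⟨a, Finsupp.mem_support_iff.1 k, e⟩

variable {σ I κ : Type} [Fintype σ] [DecidableEq σ] [Fintype I] [DecidableEq I] [Fintype κ]
  [DecidableEq κ] {l s : ℕ} {q : Gq σ I κ l}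

theorem snd_md (o : Option I) (μ : σ →₀ ℕ) :
    (μ.mapDomain fun a => (o, a)).mapDomain Prod.snd = μ := by
  rw [← Finsupp.mapDomain_comp]; exact Finsupp.mapDomain_id

theorem mem_wq {ν : Option I × σ →₀ ℕ} : ν ∈ q.WQ ↔ ν.mapDomain Prod.snd ∈ q.W ∧
    ∃ o, ∀ p, ν p ≠ 0 → p.1 = o := by
  have e : ν ∈ q.WQ ↔ ∃ o : Option I, ∃ μ ∈ q.W, μ.mapDomain (o, ·) = ν := by simp [WP]
  rw [e]
  refine ⟨fun ⟨o, μ, k, e⟩ => ?_, fun ⟨k, o, h⟩ => ⟨o, _, k, ?_⟩⟩
  · subst e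
    refine ⟨by rwa [snd_md], o, fun p c => ?_⟩
    obtain ⟨a, -, rfl⟩ := md_ne c
    rfl
  · rw [← Finsupp.mapDomain_comp]
    exact (Finsupp.mapDomain_congr (g := id) fun p c =>
      show (o, p.2) = p from Prod.ext (h p (Finsupp.mem_support_iff.1 c)).symm rfl).trans
      Finsupp.mapDomain_id

theorem mem_wt {μ : (Option I × σ) ⊕ κ →₀ ℕ} : μ ∈ q.Wt s ↔ μ.degree ≤ s ∧
    μ.mapDomain (Sum.elim Prod.snd q.kp) ∈ q.W ∧
    ∃ o, ∀ t, μ t ≠ 0 → (∀ p, t = .inl p → p.1 = o) ∧ ∀ k, t = .inr k → q.on o k := by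
  simp only [Gq.Wt, mem_filter, mem_full, Finsupp.mem_support_iff]

theorem dn_wq (h : q.Ok s) : Dn q.WQ := fun _ k _ e => by
  obtain ⟨a, o, b⟩ := mem_wq.1 k
  exact mem_wq.2 ⟨h.dn _ a _ (Finsupp.mapDomain_mono e), o,
    fun p c => b p fun z => c (Nat.le_zero.1 (z ▸ e p))⟩

theorem dn_wt (h : q.Ok s) : Dn (q.Wt s) := fun _ k _ e => by
  obtain ⟨d, a, o, b⟩ := mem_wt.1 k
  exact mem_wt.2 ⟨(degree_mono e).trans d, h.dn _ a _ (Finsupp.mapDomain_mono e), o,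
    fun p c => b p fun z => c (Nat.le_zero.1 (z ▸ e p))⟩

theorem s1 (h : q.Ok s) : 1 ≤ s := by simpa using h.dg _ (h.one q.x)

theorem dg_wq (h : q.Ok s) {ν : Option I × σ →₀ ℕ} (k : ν ∈ q.WQ) : ν.degree ≤ s := by
  have := h.dg _ (mem_wq.1 k).1
  rwa [Finsupp.degree_mapDomain] at this

theorem one_wt (h : q.Ok s) (t : (Option I × σ) ⊕ κ) : Finsupp.single t 1 ∈ q.Wt s := by
  refine mem_wt.2 ⟨by simpa using s1 h, by rw [Finsupp.mapDomain_single]; exact h.one _,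
    t.elim Prod.fst fun _ => none, fun u c => ?_⟩
  obtain rfl : t = u := of_not_not fun e => c (Finsupp.single_eq_of_ne' e)
  exact ⟨by rintro p rfl; rfl, by rintro k rfl c e; cases e⟩

theorem old (h : q.Ok s) (ν : Option I × σ →₀ ℕ) :
    ν ∈ q.WQ ↔ ν.mapDomain Sum.inl ∈ q.Wt s := by
  have e : (ν.mapDomain Sum.inl).mapDomain (Sum.elim Prod.snd q.kp) = ν.mapDomain Prod.snd := by
    rw [← Finsupp.mapDomain_comp]; rfl
  rw [mem_wt, e, Finsupp.degree_mapDomain]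
  refine ⟨fun k => ?_, fun ⟨_, a, o, b⟩ => mem_wq.2 ⟨a, o, fun p c => (b (.inl p) ?_).1 p rfl⟩⟩
  · obtain ⟨a, o, b⟩ := mem_wq.1 k
    refine ⟨dg_wq h k, a, o, fun t c => ?_⟩
    obtain ⟨p, c', rfl⟩ := md_ne c
    exact ⟨fun p' e => Sum.inl_injective e ▸ b p c', fun k e => nomatch e⟩
  · rwa [Finsupp.mapDomain_apply Sum.inl_injective]

theorem lam_ne {k : κ} {t : Option I × σ} (z : q.lam k t ≠ 0) : t.2 = q.kp k ∧ q.on t.1 k :=
  of_not_not fun c => z (if_neg c)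

theorem wd (h : q.Ok s) {ν : Option I × σ →₀ ℕ} (k : ν ∈ q.WQ)
    {μ : (Option I × σ) ⊕ κ × Bool →₀ ℕ} (z : smat (fwF q.bl q.lam fun _ => false) ν μ ≠ 0) :
    μ.mapDomain (Sum.map id Prod.fst) ∈ q.Wt s := by
  obtain ⟨a, o, b⟩ := mem_wq.1 k
  have f : ∀ (i : κ × Bool) u, fwF q.bl q.lam (fun _ => false) (.inr i) u ≠ 0 →
      q.lam i.1 u ≠ 0 := fun i u c => by
    simp only [fwF, Sum.elim_inr] at c
    split_ifs at c
    exacts [c, absurd rfl c]
  have g : ∀ (p : Option I × σ) u, fwF q.bl q.lam (fun _ => false) (.inl p) u ≠ 0 → p = u :=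
    fun p u c => of_not_not fun e => c (Pi.single_eq_of_ne' e _)
  refine mem_wt.2 ⟨by rw [Finsupp.degree_mapDomain, ← Sh.smat_degree z]; exact dg_wq h k, ?_, o,
    fun t c => ?_⟩
  · rw [← Finsupp.mapDomain_comp, ← Sh.smat_col (col' := Prod.snd) ?_ z]
    · exact a
    rintro (p | i) u c
    · exact congrArg Prod.snd (g p u c)
    · exact (lam_ne (f i u c)).1.symm
  · obtain ⟨x, c', rfl⟩ := md_ne c
    obtain ⟨u, c1, c2⟩ := smat_sup z c'
    rcases x with p | i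
    · exact ⟨fun p' e => Sum.inl_injective e ▸ (congrArg Prod.fst (g p u c2)).trans (b u c1),
        fun k e => nomatch e⟩
    · exact ⟨fun p' e => (nomatch e), fun k e =>
        (Sum.inr_injective e : i.1 = k) ▸ b u c1 ▸ (lam_ne (f i u c2)).2⟩

theorem card_wq (h : q.Ok s) {n : ℕ} (h1 : Fintype.card σ ≤ n) (h2 : Fintype.card I ≤ n) :
    #q.WQ ≤ (n + 1) ^ (s + 1) := by
  have a : #q.W ≤ (n + 1) ^ s := (card_le_card fun μ k => mem_full.2 (h.dg μ k)).trans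
    ((C2.card_fl σ s).trans (Nat.pow_le_pow_left (by omega) _))
  refine card_biUnion_le.trans ((sum_le_card_nsmul _ _ _ fun _ _ => card_image_le.trans a).trans ?_)
  rw [card_univ, Fintype.card_option, smul_eq_mul, pow_succ']
  exact Nat.mul_le_mul_right _ (by omega)

end Cq

open Cq in
/-- **the data of the cube** -/
theorem cbq : CBQ := by
  intro σ I κ _ _ _ _ _ _ l s n q a κ0 κz h h1 h2 h3 h4 ha hz h0
  have v : ∀ μ : Option I × σ →₀ ℕ, a ≤ vq κz κ0 μ := fun μ => by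
    rw [vq]; split_ifs
    exacts [hz _, h0]
  have N : n + 1 ≤ (n + 1) ^ (s + 1) := Nat.le_self_pow (by omega) _
  refine ⟨⟨Sh.mono_sz (dn_wq h) (kb_dk (b := ∑ μ ∈ q.WQ, vq κz κ0 μ) fun μ k =>
      ⟨v μ, single_le_sum (fun ν _ => ha.le.trans (v ν)) k⟩) ha (Sh.dk_blk _) (card_wq h h1 h2),
    dn_wt h, dn_wt h _ (one_wt h (.inl (none, q.x))) _ zero_le, old h, fun _ k => dg_wq h k,
    one_wt h, s1 h, fun _ _ z => (lam_ne z).1, fun i t => ?_, by omega, fun _ k _ z => wd h k z⟩,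
    fun o μ _ z => ?_⟩
  · rw [Gq.lam]
    split_ifs
    · rcases t with ⟨_ | c, t⟩
      · simp only [Option.elim_none, Nat.abs_cast]
        exact Int.ofNat_le.2 (by omega)
      · simp only [Option.elim_some, abs_one]
        exact Int.ofNat_le.2 (show 1 ≤ _ by omega)
    · rw [abs_zero]; positivity
  · rcases o with _ | c
    · rw [vq, if_pos, snd_md]; · rfl
      intro t k
      obtain ⟨x, -, rfl⟩ := md_ne (Finsupp.mem_support_iff.1 k)
      rfl
    · obtain ⟨x, k⟩ := Finsupp.ne_iff.1 z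
      refine if_neg fun e => nomatch e (some c, x) (Finsupp.mem_support_iff.2 ?_)
      rwa [Finsupp.mapDomain_apply (f := fun a => (some c, a)) (Prod.mk_right_injective _)]

end Crest.Agent.N49.Su

end
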