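import Crest.Agent.N49.Su.Defs

/-!
# Row 49 (helper73): the words that are kept
-/

set_option autoImplicit false
set_option linter.unusedSectionVars false

open Matrix MvPolynomial Finset

noncomputable section

namespace Crest.Agent.N49.Su

open Po Tw Sd Sw

namespace Wr

section gen
variable {A B : Type}

theorem dg_md (f : A → B) (μ : A →₀ ℕ) : (μ.mapDomain f).degree = μ.degree := by
  induction μ using Finsupp.induction_linear with
  | zero => simp
  | add a b ha hb => rw [Finsupp.mapDomain_add, map_add, map_add, ha, hb]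
  | single a n => simp

theorem two_le (f : A → B) {μ : A →₀ ℕ} {a a' : A}
    (h : Finsupp.single a 1 + Finsupp.single a' 1 ≤ μ) :
    Finsupp.single (f a) 1 + Finsupp.single (f a') 1 ≤ μ.mapDomain f := by
  simpa only [Finsupp.mapDomain_add, Finsupp.mapDomain_single] using
    Finsupp.mapDomain_mono (f := f) h

theorem two_ne {μ : A →₀ ℕ} {a a' : A} (e : a ≠ a') (h : μ a ≠ 0) (h' : μ a' ≠ 0) :
    Finsupp.single a 1 + Finsupp.single a' 1 ≤ μ := fun t => by
  classical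
  simp only [Finsupp.add_apply, Finsupp.single_apply]
  split_ifs with p q q
  · exact absurd (p.trans q.symm) e
  · subst p; omega
  · subst q; omega
  · omega

theorem all_md (f : A → B) (μ : A →₀ ℕ) (P : B → Prop) :
    (∀ t ∈ (μ.mapDomain f).support, P t) ↔ ∀ t ∈ μ.support, P (f t) := by
  classical
  refine ⟨fun h t ht => h _ ?_, fun h t ht => ?_⟩
  · have a : Finsupp.single t 1 ≤ μ :=
      Finsupp.single_le_iff.2 (Nat.one_le_iff_ne_zero.2 (Finsupp.mem_support_iff.1 ht))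
    have b := Finsupp.mapDomain_mono (f := f) a
    rw [Finsupp.mapDomain_single, Finsupp.single_le_iff] at b
    exact Finsupp.mem_support_iff.2 (Nat.one_le_iff_ne_zero.1 b)
  · obtain ⟨u, hu, rfl⟩ := mem_image.1 (Finsupp.mapDomain_support ht)
    exact h u hu

theorem mfull [Fintype A] [DecidableEq A] {s : ℕ} {μ : A →₀ ℕ} : μ ∈ full A s ↔ μ.degree ≤ s := by
  simp [full, Finsupp.degree_eq_sum]

theorem dg_wr [DecidableEq A] (μ : A ⊕ B →₀ ℕ) : (wr μ).degree ≤ μ.degree := by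
  rw [← dg_md (Sum.inr : B → A ⊕ B)]
  refine Finsupp.degree_mono fun t => ?_
  rcases t with t | t
  · rw [Finsupp.mapDomain_of_notMem_range _ _ (by simp)]; exact Nat.zero_le _
  · rw [Finsupp.mapDomain_apply Sum.inr_injective]; exact le_rfl
end gen

variable {σ I κ : Type} [Fintype σ] [DecidableEq σ] [Fintype I] [DecidableEq I] [Fintype κ]
  [DecidableEq κ] {l s : ℕ} {q : Gq σ I κ l}

theorem mem_X (h : q.Ok s) (μ : (Option I × σ) ⊕ κ × Bool →₀ ℕ) : μ ∈ WXF q.bl s (q.Wt s) l ↔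
    μ.mapDomain (Sum.elim Prod.snd fun k => q.kp k.1) ∈ q.W ∧
      ∃ o, ∀ t ∈ μ.support, Sum.elim (fun p => p.1 = o) (fun k => q.on o k.1) t := by
  have e : (μ.mapDomain (Sum.map id Prod.fst)).mapDomain (Sum.elim Prod.snd q.kp) =
      μ.mapDomain (Sum.elim Prod.snd fun k => q.kp k.1) := by
    rw [← Finsupp.mapDomain_comp]; congr 1; ext (t | t) <;> rfl
  simp only [WXF, Gq.Wt, BjF, mem_filter, mfull, dg_md, e, all_md]
  refine ⟨fun ⟨_, ⟨_, a, o, b⟩, _⟩ => ⟨a, o, fun t ht => ?_⟩, fun ⟨a, o, b⟩ => ?_⟩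
  · rcases t with t | t
    · exact (b _ ht).1 t rfl
    · exact (b _ ht).2 t.1 rfl
  have d : μ.degree ≤ s := (dg_md _ μ).ge.trans (h.dg _ a)
  refine ⟨d, ⟨d, a, o, fun t ht => ?_⟩, (dg_wr μ).trans d, fun k k' e => ?_,
    fun k c => absurd (q.bl k).2 (not_lt.2 c)⟩
  · rcases t with t | t
    · exact ⟨fun p e => Sum.inl.inj e ▸ b _ ht, fun k e => nomatch e⟩
    · exact ⟨fun p e => (nomatch e), fun k e => (Sum.inr.inj e : t.1 = k) ▸ b _ ht⟩
  · by_contra! c
    have t := two_le (Sum.elim Prod.snd fun k : κ × Bool => q.kp k.1) (two_ne (μ := μ)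
      (a := .inr (k, false)) (a' := .inr (k', true)) (by simp) c.1 c.2)
    exact h.tv k k' e (h.dn _ a _ t)

/-- the letters that are compatible with the copy `o` -/
def ok (q : Gq σ I κ l) (o : Option I) : (σ ⊕ κ × Bool) ⊕ I → Prop :=
  Sum.elim (Sum.elim (fun _ => none = o) fun k => q.on o k.1) fun c => some c = o

theorem mem_1 (h : q.Ok s) (ν : (σ ⊕ κ × Bool) ⊕ I →₀ ℕ) : ν ∈ q.W1 s ↔
    ν.mapDomain q.c1 ∈ q.W ∧ ∃ o, ∀ t ∈ ν.support, ok q o t := by
  have e : (ν.mapDomain q.i1).mapDomain (Sum.elim Prod.snd fun k => q.kp k.1) =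
      ν.mapDomain q.c1 := by
    rw [← Finsupp.mapDomain_comp]; congr 1; ext ((t | t) | t) <;> rfl
  have e' : ∀ o t, Sum.elim (fun p => p.1 = o) (fun k => q.on o k.1) (q.i1 t) ↔ ok q o t := by
    rintro o ((t | t) | t) <;> rfl
  simp only [Gq.W1, mem_filter, mfull, mem_X h, e, all_md, e']
  exact and_iff_right_of_imp fun a => (dg_md _ ν).ge.trans (h.dg _ a.1)

theorem mem_' (h : q.Ok s) (ν : σ ⊕ κ × Bool →₀ ℕ) : ν ∈ q.W' s ↔ ν.mapDomain q.cl ∈ q.W := by
  simp only [Gq.W', mem_filter, mfull]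
  exact and_iff_right_of_imp fun a => (dg_md _ ν).ge.trans (h.dg _ a)

theorem ic_inj (c : I) : Function.Injective (q.ic c) := fun a b e => by
  unfold Gq.ic at e
  split_ifs at e with p r r
  · rw [p, r]
  · exact Sum.inl.inj e

theorem c1_ic (c : I) : q.c1 ∘ q.ic c = q.cl := funext fun t => by
  simp only [Function.comp, Gq.ic]
  split_ifs with p
  · rw [p]; rfl
  · rfl

theorem ok_ic (h : q.Ok s) (c : I) (t : σ ⊕ κ × Bool) :
    ok q (some c) (q.ic c t) ↔ t ∈ q.Se (q.ec c) := by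
  rcases t with t | ⟨k, b⟩
  · by_cases e : t = q.x <;> simp [Gq.ic, Gq.Se, ok, e]
  · simp only [Gq.ic, reduceCtorEq, if_false, ok, Sum.elim_inl, Sum.elim_inr, Gq.on, Gq.Se,
      mem_insert, false_or, mem_image, mem_univ, true_and, Sum.inr.injEq, Prod.mk.injEq,
      Option.some.injEq, forall_eq', Prod.exists]
    exact ⟨fun e => ⟨_, b, e, rfl⟩, fun ⟨i, _, e, _⟩ => by rw [← e, h.ec]⟩

theorem sub_ic (h : q.Ok s) (c : I) : Sub (q.ic c) (q.Se (q.ec c)) (q.W1 s) (q.We s (q.ec c)) :=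
  ⟨ic_inj c, fun ν => by
    rw [Gq.We, mem_filter, mem_' h, mem_1 h, ← Finsupp.mapDomain_comp, c1_ic]
    exact ⟨fun a => ⟨⟨a.1, some c, (all_md _ _ _).2 fun t ht => (ok_ic h c t).2 (a.2 ht)⟩, a.2⟩,
      fun a => ⟨a.1.1, a.2⟩⟩⟩

end Wr
open Wr

theorem wrd : WRD := by
  intro σ I κ _ _ _ _ _ _ l s q h
  refine ⟨⟨?_, fun ν => ?_⟩, ⟨Sum.inl_injective, fun ν => ?_⟩, fun e => ⟨Function.injective_id,
    fun ν => by rw [Gq.We, mem_filter, Finsupp.mapDomain_id]⟩, fun t => ?_,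
    fun c => ⟨sub_ic h c, fun μ hμ n => ?_⟩⟩
  · rintro ((a | a) | a) ((b | b) | b) e <;> simp_all [Gq.i1]
  · rw [and_iff_left (subset_univ _), Gq.W1, mem_filter, and_iff_right_of_imp]
    exact fun a => mfull.2 ((dg_md _ ν).ge.trans (mfull.1 (mem_filter.1 a).1))
  · rw [and_iff_left (subset_univ _), mem_' h, mem_1 h, ← Finsupp.mapDomain_comp]
    refine (and_iff_left ⟨none, (all_md _ _ _).2 fun t _ => ?_⟩).symm
    rcases t with t | t
    · rfl
    · exact fun c e => nomatch e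
  · rw [mem_1 h, Finsupp.mapDomain_single, Finsupp.support_single _ one_ne_zero]
    refine ⟨h.one _, ?_⟩
    rcases t with (t | t) | t
    · exact ⟨none, fun u hu => by rw [mem_singleton.1 hu]; rfl⟩
    · exact ⟨none, fun u hu => by rw [mem_singleton.1 hu]; exact fun c e => nomatch e⟩
    · exact ⟨some t, fun u hu => by rw [mem_singleton.1 hu]; rfl⟩
  obtain ⟨a, o, b⟩ := (mem_1 h μ).1 hμ
  obtain rfl : some c = o := b _ (Finsupp.mem_support_iff.2 n)
  refine ⟨by_contra fun e => h.xx (h.dn _ a _ (two_le q.c1 (a := .inr c) (a' := .inr c) ?_)), ?_⟩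
  · rw [← Finsupp.single_add, Finsupp.single_le_iff]; omega
  have r : (μ.support : Set _) ⊆ Set.range (q.ic c) := by
    rintro ((t | t) | t) ht
    · exact nomatch b _ ht
    · exact ⟨.inr t, by simp [Gq.ic]⟩
    · exact ⟨.inl q.x, by rw [show t = c from Option.some.inj (b _ ht)]; simp [Gq.ic]⟩
  have e := Finsupp.mapDomain_comapDomain _ (ic_inj c) μ r
  refine ⟨_, ((sub_ic h c).mem _).2 ⟨e.symm ▸ hμ, fun t ht => (ok_ic h c t).1 (b _ ?_)⟩, e.symm⟩
  simpa using ht

end Crest.Agent.N49.Su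

end
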