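import Crest.Agent.N49.Su.Df2
import Crest.Agent.N49.Su.Exq
import Crest.Agent.N49.Su.Alg
import Crest.Agent.N49.Su.Cbq
import Crest.Agent.N49.Su.Wrd

/-!
# Row 49 (helper91): a fibre relation goes up from the small ring to the big ring (leaf `RXW`)
-/

set_option autoImplicit false
set_option linter.unusedSectionVars false

open Matrix MvPolynomial Finset

noncomputable section

namespace Crest.Agent.N49.Su

open Po Tw Sd Sw

namespace Rxw

/-- the marginal form is smaller, along an injection -/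
theorem qf_le {A B : Type} [Fintype A] [Fintype B] [DecidableEq A] [DecidableEq B] {f : A → B}
    (hf : Function.Injective f) {K : Matrix B B ℝ} (hK : K.PosDef) (x : B → ℝ) :
    qf (K.submatrix f f)⁻¹ (fun a => x (f a)) ≤ qf K⁻¹ x := by
  classical
  obtain ⟨p, hp⟩ : ∃ p : B → Prop, ∀ c, p c ↔ c ∈ Set.range f := ⟨_, fun _ => Iff.rfl⟩
  obtain ⟨e, he⟩ : ∃ e : A ≃ {c // p c}, ∀ a, (e a).1 = f a :=
    ⟨(Equiv.ofInjective f hf).trans (Equiv.subtypeEquivRight fun c => (hp c).symm), fun _ => rfl⟩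
  have a : K.submatrix f f = (Db.pp p K).submatrix e e := by
    ext i j; simp only [submatrix_apply, he]
  have b : (fun a => x (f a)) = (fun c : {c // p c} => x c) ∘ e := by
    ext i; simp only [Function.comp, he]
  rw [a, b, Rt.qf_eqv]
  exact Db.qf_pp_le hK x

theorem ok_dk {σ τ : Type} [DecidableEq τ] {col : τ → σ} {W : Finset (τ →₀ ℕ)}
    {κ : (τ →₀ ℕ) → ℝ} (dn : Dn W) (h : ∀ μ, 0 < κ μ) : (MR col W (dk κ)).Ok := Sh.mono_ok dn (by
  have : (MR col W (dk κ)).K = diagonal fun μ : {μ // μ ∈ W.erase 0} => κ μ.1 :=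
    Matrix.ext fun (a b : {μ // μ ∈ W.erase 0}) =>
      if_congr (Subtype.ext_iff (a1 := a) (a2 := b)).symm rfl rfl
  rw [this]
  exact PosDef.diagonal fun μ => h _) (Sh.dk_blk _)

/-- a relation on a subring is a relation on the ring -/
theorem up {σ τ τ' : Type} [DecidableEq σ] [DecidableEq τ] [DecidableEq τ'] {U : TS σ}
    {col : τ → σ} {W : Finset (τ →₀ ℕ)} {κ : (τ →₀ ℕ) → ℝ} {col' : τ' → σ}
    {W' : Finset (τ' →₀ ℕ)} {κ' : (τ' →₀ ℕ) → ℝ} {g : τ' → τ} {x : τ'} {b : ℝ}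
    {y : U.Cw (MR col W (dk κ)) → ℝ} {G : (U.Cw (MR col W (dk κ)) → ℝ) → ℝ}
    {G' : (U.Cw (MR col' W' (dk κ')) → ℝ) → ℝ} (o : U.Ok) (cl : U.Cl) (hg : Function.Injective g)
    (hc : ∀ t, col (g t) = col' t) (d : Dn W) (d' : Dn W') (hW : ∀ μ ∈ W', μ.mapDomain g ∈ W)
    (hκ : ∀ μ, κ (μ.mapDomain g) = κ' μ) (k0 : ∀ μ, 0 < κ μ) (b0 : 0 ≤ b)
    (hG : ∀ ξ, G ξ = G' fun p => ξ (Rt.jj U _ _ hg hc hW p))
    {y' : U.Cw (MR col' W' (dk κ')) → ℝ} (hy : ∀ p, y' p = y (Rt.jj U _ _ hg hc hW p))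
    (h : Rx (U.sh (MR col' W' (dk κ'))) (fun p => p.1.2.1 x ≠ 0) y' b G') :
    Rx (U.sh (MR col W (dk κ))) (fun p => p.1.2.1 (g x) ≠ 0) y b G := by
  obtain ⟨I, h0, hI⟩ := h
  obtain ⟨j, hj⟩ : ∃ j, j = Rt.jj U (dk κ) (dk κ') hg hc hW := ⟨_, rfl⟩
  have ji : Function.Injective j := hj ▸ Rt.jj_inj U (dk κ) (dk κ') hg hc hW
  have jx : ∀ p, (j p).1.2.1 (g x) = p.1.2.1 x := fun p => by
    rw [hj]; exact Finsupp.mapDomain_apply hg _ _
  obtain ⟨I', hx⟩ : ∃ I', I' = Function.extend j I 0 := ⟨_, rfl⟩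
  have e0 : ∀ p, I' (j p) = I p := fun p => hx ▸ ji.extend_apply I 0 p
  have e1 : ∀ p, (¬ ∃ p', j p' = p) → I' p = 0 := fun p k => by
    rw [hx, Function.extend_apply' _ _ _ k]; rfl
  refine ⟨I', fun (p : U.Cw (MR col W (dk κ))) k => ?_,
    fun (ξ : U.Cw (MR col W (dk κ)) → ℝ) hξ => ?_⟩
  · by_cases c : ∃ p', j p' = p
    · obtain ⟨p', rfl⟩ := c
      exact (e0 p').trans (h0 p' fun z => k fun t => z ((jx p').symm.trans t))
    · exact e1 p c
  have e4 : ∑ c, (I c : ℝ) * ξ (j c) = ∑ c : U.Cw (MR col W (dk κ)), (I' c : ℝ) * ξ c :=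
    Fintype.sum_of_injective j ji _ _ (fun p h => by rw [e1 p h, Int.cast_zero, zero_mul])
      fun p => by rw [e0]
  let f : {p : U.Cw (MR col' W' (dk κ')) // p.1.2.1 x ≠ 0} →
      {p : U.Cw (MR col W (dk κ)) // p.1.2.1 (g x) ≠ 0} :=
    fun p => ⟨j p.1, fun z => p.2 ((jx p.1).symm.trans z)⟩
  have fi : Function.Injective f := fun _ _ k => Subtype.ext (ji (congrArg Subtype.val k))
  have h1 := hI (fun p => ξ (j p)) fun p k =>
    (hξ (j p) fun z => k fun t => z ((jx p).trans t)).trans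
      ((congrArg y (congrFun hj p)).trans (hy p).symm)
  have h2 := qf_le fi ((TS.sh_tri cl (ok_dk (col := col) d k0)).pd.submatrix
    (Subtype.val_injective (p := fun p : U.Cw (MR col W (dk κ)) => p.1.2.1 (g x) ≠ 0)))
    fun c => (U.sh (MR col W (dk κ))).u ξ c.1
  refine le_of_eq_of_le (congrArg₂ (fun s t => |s - t|) ((hG ξ).trans (hj ▸ rfl)) e4.symm)
    (h1.trans (mul_le_mul_of_nonneg_left (Real.sqrt_le_sqrt (le_of_eq_of_le ?_ h2)) b0))
  refine congrArg₂ (fun K u => qf K⁻¹ u) (Matrix.ext fun p q => ?_) (funext fun p => ?_)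
  · change U.K p.1.1.1 q.1.1.1 * dk κ' p.1.1.2.1 q.1.1.2.1 =
      U.K (j p.1).1.1 (j q.1).1.1 * dk κ (j p.1).1.2.1 (j q.1).1.2.1
    rw [hj]
    change _ = U.K p.1.1.1 q.1.1.1 * dk κ (p.1.1.2.1.mapDomain g) (q.1.1.2.1.mapDomain g)
    rw [dk, dk, hκ]
    exact congrArg _ (if_congr (Finsupp.mapDomain_injective hg).eq_iff.symm rfl rfl)
  · change (U.sh (MR col' W' (dk κ'))).u (fun p => ξ (j p)) p.1 = (U.sh (MR col W (dk κ))).u ξ (j p.1)
    rw [hj]
    exact Rt.u_jj U _ _ hg hc hW o d' ξ p.1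

variable {σ I κ : Type} [Fintype σ] [DecidableEq σ] [Fintype I] [DecidableEq I] [Fintype κ]
  [DecidableEq κ] {l s : ℕ} {q : Gq σ I κ l}

theorem dn_W' (h : q.Ok s) : Dn (q.W' s) := fun _ k _ le =>
  (Wr.mem_' h _).2 (h.dn _ ((Wr.mem_' h _).1 k) _ (Finsupp.mapDomain_mono le))

theorem dn_We (h : q.Ok s) (e : Fin l → κ) : Dn (q.We s e) := fun _ k _ le =>
  mem_filter.2 ⟨dn_W' h _ (mem_filter.1 k).1 _ le,
    (Finsupp.support_mono le).trans (mem_filter.1 k).2⟩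

theorem r2_se (h : q.Ok s) (j : I) {ν : σ →₀ ℕ} (hν : ν ≤ q.w (q.ec j)) {μ : σ ⊕ κ × Bool →₀ ℕ}
    (z : smat q.r2 ν μ ≠ 0) {a : σ ⊕ κ × Bool} (k : μ a ≠ 0) : a ∈ q.Se (q.ec j) := by
  obtain ⟨t, n, r⟩ := Cq.smat_sup z k
  obtain a | ⟨c, β⟩ := a
  · obtain rfl : a = q.x := of_not_not fun e => r (congrFun (if_neg e) t)
    exact mem_insert_self _ _
  · obtain rfl : t = q.kp c := of_not_not fun e => r (by
      have : (Pi.single (q.kp c) 1 : σ → ℤ) t = 0 := Pi.single_eq_of_ne e _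
      cases β <;> simp [Gq.r2, this])
    have a2 := (Nat.pos_of_ne_zero n).trans_le (hν _)
    rw [Ag.w_apply h] at a2
    obtain ⟨i, e⟩ := (of_not_not fun n => by rw [if_neg n] at a2; exact a2.false :
      q.kp c = q.x ∨ ∃ i, q.kp (q.ec j i) = q.kp c).resolve_left (h.x c)
    exact mem_insert_of_mem (mem_image.2 ⟨(i, β), mem_univ _, by rw [h.inj e]⟩)

end Rxw

open Rxw in
theorem rxw : RXW := by
  intro σ I κ C _ _ _ _ _ _ _ l s M q U st fm κ' K R y j G h o g k0 R0 hG hR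
  have sb : Sub id (q.Se (q.ec j)) (q.W' s) (q.We s (q.ec j)) :=
    ⟨Function.injective_id, fun ν => by rw [Finsupp.mapDomain_id]; exact mem_filter⟩
  have hW : ∀ μ ∈ q.We s (q.ec j), μ.mapDomain id ∈ q.W' s := fun μ k => ((sb.mem μ).1 k).1
  refine Rxw.up (g := id) (x := .inl q.x) (col := q.cl) (col' := q.cl) (κ := κ') (κ' := κ')
    (W := q.W' s) (W' := q.We s (q.ec j)) o g.cl Function.injective_id (fun _ => rfl) (dn_W' h)
    (dn_We h _) hW (fun μ => congrArg κ' Finsupp.mapDomain_id) k0 R0 (fun ξ => ?_)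
    (fun p => congrArg Int.cast (Eq0.rq_at U y p
      (Rt.jj U K (dk κ') Function.injective_id (fun _ => rfl) hW p) rfl rfl)) hR
  rw [Eq0.ev_sbp]
  refine eval₂Hom_congr' rfl (fun v hv _ => ?_) rfl
  refine Ag.sbv_sub sb (fun b k => ?_) (fun μ z a k => ⟨a, r2_se h j (wt_le hG hv) z k, rfl⟩)
    fun μ m => ?_
  · obtain rfl | k := mem_insert.1 k
    · exact if_pos rfl
    · obtain ⟨_, -, rfl⟩ := mem_image.1 k
      rfl
  · refine Eq.trans ?_ (Eq0.ex_rq U fm (ι := id) (col' := q.cl) (K' := dk κ') (fun _ => rfl) ξ v.1 m)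
    exact congrArg (fun z => ex U (MR q.cl (q.We s (q.ec j)) (dk κ')) fm z (v.1, μ))
      (funext fun p => (Eq0.rq_at U ξ p
        (Rt.jj U (dk κ') (dk κ') Function.injective_id (fun _ => rfl) hW p) rfl rfl).symm)

end Crest.Agent.N49.Su

end
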