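import Crest.Agent.N49.Su.Defs
import Crest.Agent.N49.Sw.Rtr
import Crest.Agent.N49.Sw.Fib
import Crest.Agent.N49.Sw.Fibs
import Crest.Agent.N49.Sw.Cola

/-!
# Row 49 (helper18): `FIBS` on monomial rings
-/

set_option autoImplicit false
set_option linter.unusedSectionVars false

open Matrix MvPolynomial Finset

noncomputable section

namespace Crest.Agent.N49.Su

open Po Tw Sd Sw

namespace Fq

theorem wt_at {V τ : Type} (dg : V → τ →₀ ℕ) (μ : V →₀ ℕ) (t : τ) :
    Finsupp.weight dg μ t = Finsupp.weight (fun v => dg v t) μ := by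
  rw [Finsupp.weight_apply, Finsupp.weight_apply, Finsupp.sum, Finsupp.sum, Finsupp.finsetSum_apply]
  rfl

theorem dn {τ τ' : Type} {ι : τ' → τ} {S : Finset τ'} {W : Finset (τ →₀ ℕ)}
    {W' : Finset (τ' →₀ ℕ)} (h : Sub ι S W W') (d : Dn W) : Dn W' := fun μ hμ ν e =>
  (h.mem ν).2 ⟨d _ ((h.mem μ).1 hμ).1 _ (Finsupp.mapDomain_mono e),
    (Finsupp.support_mono e).trans ((h.mem μ).1 hμ).2⟩

theorem rx_mono {τ : Type} {V : TS τ} {p : V.C → Prop} [DecidablePred p] {y : V.C → ℝ}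
    {B B' : ℝ} {G : (V.C → ℝ) → ℝ} (h : Rx V p y B G) (e : B ≤ B') : Rx V p y B' G :=
  h.imp fun _ k => ⟨k.1, fun ξ a =>
    (k.2 ξ a).trans (mul_le_mul_of_nonneg_right e (Real.sqrt_nonneg _))⟩

variable {σ τ τ' C : Type} [DecidableEq σ] [DecidableEq τ] [DecidableEq τ'] [DecidableEq C]
  (U : TS σ) (fm : U.C → C) (col : τ → σ) (W : Finset (τ →₀ ℕ)) (K : Kn τ) (col' : τ' → σ)
  (W' : Finset (τ' →₀ ℕ)) (K' : Kn τ') (ι : τ' → τ)

theorem card_cw : Fintype.card (U.Cw (MR col W K)) ≤ Fintype.card U.C * #W := by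
  refine (Fintype.card_subtype_le _).trans ?_
  rw [Fintype.card_prod]
  refine Nat.mul_le_mul_left _ ?_
  change Fintype.card {μ // μ ∈ W.erase 0} ≤ _
  rw [Fintype.card_coe]
  exact card_le_card (erase_subset _ _)

/-- the substitution -/
def sb (v : VV C τ') : MvPolynomial (U.Cw (MR col W K)) ℝ :=
  ex U (MR col' W' K') fm (rq U (MR col W K) (MR col' W' K') ι X) v

theorem ev (ξ : U.Cw (MR col W K) → ℝ) (G : MvPolynomial (VV C τ') ℝ) :
    eval ξ (aeval (sb U fm col W K col' W' K' ι) G) =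
      eval (ex U (MR col' W' K') fm (rq U (MR col W K) (MR col' W' K') ι ξ)) G := by
  rw [← coe_aeval_eq_eval, ← coe_aeval_eq_eval]
  change aeval ξ (aeval _ G) = aeval _ G
  rw [← AlgHom.comp_apply, comp_aeval]
  refine congrArg (fun f => aeval f G) (funext fun v => ?_)
  simp only [sb, ex, rq, map_sum, aeval_X]

theorem sb_hom (t : τ) (w : VV C τ' → ℕ) (h : ∀ ν ∈ W', ∀ c, ν.mapDomain ι t = w (c, ν))
    (v : VV C τ') : (sb U fm col W K col' W' K' ι v).IsWeightedHomogeneous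
      (fun p => p.1.2.1 t) (w v) := by
  refine IsWeightedHomogeneous.sum _ _ _ fun p hp => IsWeightedHomogeneous.sum _ _ _ fun q hq => ?_
  obtain ⟨-, -, b⟩ := mem_filter.1 hp
  obtain ⟨-, -, b'⟩ := mem_filter.1 hq
  have e : q.1.2.1 t = w v := by
    refine (congrArg (· t) b').trans ((h _ (mem_erase.1 p.1.2.2).2 v.1).trans ?_)
    exact congrArg (fun ν => w (v.1, ν)) b
  exact e ▸ isWeightedHomogeneous_X ℝ (fun p : U.Cw (MR col W K) => p.1.2.1 t) q

end Fq
open Fq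

theorem fibq (hq : EXQ) (hr : RTR) : FIBQ := by
  intro σ τ τ' I C _ _ _ _ _ U st M m fm col W κ col' W' κ' ι S x Φ G o _ d ok sub hc hj hx hW hκ
    hG hΦ hb hm
  have vo : (U.sh (MR col W (dk κ))).Ok :=
    TS.sh_ok o.cl ok Sh.mono_ty (funext fun _ => sum_eq_zero fun _ _ => ite_self _)
  have hw : ∀ (p : U.Cw (MR col W (dk κ))) c, p.1.2.1 (ι c x) ≠ 0 → p.1.2.1 (ι c x) = 1 ∧
      ∃ ν ∈ W' c, p.1.2.1 = ν.mapDomain (ι c) := fun p c => hW c _ (mem_erase.1 p.1.2.2).2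
  have hn : ∀ c c', ∀ ν ∈ W' c, ν.mapDomain (ι c) (ι c' x) ≠ 0 → c = c' := fun c c' ν a b => by
    obtain ⟨t, ht, e⟩ := mem_image.1 (Finsupp.mapDomain_support (Finsupp.mem_support_iff.2 b))
    exact hj c c' t (((sub c).mem ν).1 a |>.2 ht) e
  have key := fibs fib τ I (U.sh (MR col W (dk κ))) (fun c => ι c x) m Φ
    (fun c => aeval (sb U fm col W (dk κ) col' (W' c) (dk κ') (ι c)) (G c)) vo
    (fun p c => by
      by_cases k : p.1.2.1 (ι c x) = 0
      · exact k.trans_le zero_le_one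
      · exact (hw p c k).1.le)
    (fun p c c' a b => by
      obtain ⟨ν, hν, e⟩ := (hw p c a).2
      exact hn c c' ν hν fun z => b ((congrArg (· (ι c' x)) e).trans z))
    (fun p p' c k => by
      have : dk κ p.1.2.1 p'.1.2.1 ≠ 0 := right_ne_zero_of_mul k
      exact congrArg (· (ι c x)) (by_contra fun n => this (if_neg n) : p.1.2.1 = p'.1.2.1))
    (fun c μ hμ => ⟨(wt_at _ μ _).trans (Ca.hom_ae (AddMonoidHom.id ℕ) (w := fun v => v.2 x) (n := 1)
        (fun ν hν => (wt_at _ ν _).symm.trans (hG c ν (mem_support_iff.2 hν)))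
        (sb_hom U fm col W _ col' _ _ _ _ _ fun ν _ _ => Finsupp.mapDomain_apply (sub c).inj ν x)
        (mem_support_iff.1 hμ)),
      fun c' n => (wt_at _ μ _).trans (Ca.hom_ae (AddMonoidHom.id ℕ) (w := fun _ => 0) (n := 0)
        (fun ν _ => by simp [Finsupp.weight_apply])
        (sb_hom U fm col W _ col' _ _ _ _ _ fun ν a _ => by_contra fun z => n (hn c c' ν a z).symm)
        (mem_support_iff.1 hμ))⟩)
    hΦ hb (hm.trans_eq (congrArg (fun f => ‖(U.sh (MR col W (dk κ))).Ec f‖) (funext fun y =>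
      congrArg (Φ y * ·) (prod_congr rfl fun c _ => congrArg ee (by
        rw [((hq.2 σ τ τ' C ℤ U fm col W (dk κ) col' (W' c) (dk κ') (ι c) (hc c)
          (sub c).inj).2.2.1 y)]
        exact (ev U fm col W _ col' _ _ _ _ _).symm)))))
  refine key.trans (vo.toTri.P_mono fun y hy => ⟨hy.1, fun c => ?_⟩)
  have e := hq.2 σ τ τ' U.C ℝ U id col W (dk κ) col' (W' c) (dk κ') (ι c) (hc c) (sub c).inj
  refine rx_mono (hr σ τ τ' U col W κ col' (W' c) κ' (ι c) x _ (zc y) _ _ _ o (sub c).inj (hc c) d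
    (dn (sub c) d) (fun μ a => ⟨(((sub c).mem μ).1 a).1, fun z => (hκ c μ a z).symm⟩)
    (fun μ a z => (hW c μ a z).2.imp fun ν k => ⟨k.1, k.2.symm⟩) (fun F μ a _ => ?_)
    (fun ξ ξ' k => ?_) (hy.2 c)) ?_
  · exact (congrArg (fun z => ex U (MR col' (W' c) (dk κ')) id z (F, μ)) (e.2.2.1 y)).trans
      (e.1 (zc y) F μ a)
  · refine (ev U fm col W _ col' _ _ _ _ _).trans (congrArg (fun z => eval (ex U _ fm z) (G c))
      (funext fun p => ?_))
    exact ((Rt.ex_at U _ ξ' p).symm.trans (k _ _ (mem_erase.1 p.1.2.2).2)).symm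
  · have := card_cw U col W (dk κ)
    have : (Fintype.card (U.sh (MR col W (dk κ))).C : ℝ) ≤ Fintype.card U.C * #W := by
      exact_mod_cast this
    linarith

end Crest.Agent.N49.Su

end
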