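import Crest.Agent.N49.Su.Df2
import Crest.Agent.N49.Su.Fibq
import Crest.Agent.N49.Sw.Cln
import Crest.Agent.N49.Sw.Cola
import Crest.Agent.N49.Sw.Colw
import Crest.Agent.N49.Sw.Desc
import Crest.Agent.N49.Sw.Dgu
import Crest.Agent.N49.Tw.Fin
import Crest.Agent.N49.Top.Pl

/-!
# Row 49 (helper93): the numerics of the substitution step
-/

set_option autoImplicit false

open Matrix MvPolynomial Finset

noncomputable section

namespace Crest.Agent.N49.Su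

open Po Tw Sd Sw N49.Top

namespace Sn

theorem hf {a b : ℕ} (h : a ≤ b) : (1 / 2 ^ b : ℝ) ≤ 1 / 2 ^ a :=
  one_div_le_one_div_of_le (by positivity) (pow_le_pow_right₀ one_le_two h)

theorem h1 (a : ℕ) : (1 / 2 ^ a : ℝ) ≤ 1 := by simpa using hf (Nat.zero_le a)

theorem hm {σ : Type} [DecidableEq σ] {T : TS σ} {st : T.C → ℕ} {M C n : ℕ} {a η : ℝ}
    (m : MAST M C) (g : T.Stg st M) (h0 : 0 < η) (h1 : η ≤ 1) (h : T.RgS st M C n a η) :
    T.HM st n a η := fun _ _ _ k s => m _ _ _ _ _ _ _ _ _ (h.hy g h0 h1 k s le_rfl le_rfl)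

theorem hp {σ : Type} [DecidableEq σ] {T : TS σ} {st : T.C → ℕ} {M C n : ℕ} {a η : ℝ}
    (m : MARHT M C) (g : T.Stg st M) (h0 : 0 < η) (h1 : η ≤ 1) (h : T.RgS st M C n a η) :
    T.HP st n a η := fun _ _ _ _ _ _ _ _ _ _ _ _ _ k s p =>
  m _ _ _ _ _ _ _ _ _ _ _ _ _ _ _ _ _ (h.hy g h0 h1 k s le_rfl le_rfl) p

theorem sq_le {g : ℕ} (h : 4 ≤ g) : g ^ 2 ≤ 2 ^ g := by
  induction g, h using Nat.le_induction with
  | base => norm_num
  | succ k hk ih => rw [pow_succ 2 k]; nlinarith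

theorem m1_le {s n m g : ℕ} (n1 : 1 ≤ n) (g1 : 1 ≤ g) (h : m ≤ n * g) :
    m1 s n m g ≤ ((7 * n * (n + 1) + 2) * 2 ^ s + 3) * g := by
  have a : m + (g + 2) * n + 3 ≤ 7 * n * g := by nlinarith [Nat.mul_le_mul n1 g1]
  have b : (m + (g + 2) * n + 3) * (n + 1) + 2 ≤ (7 * n * (n + 1) + 2) * g := by
    nlinarith [Nat.mul_le_mul_right (n + 1) a]
  have := Nat.mul_le_mul_right (2 ^ s) b
  unfold m1
  nlinarith

/-- the width beats all the polynomial quantities -/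
theorem wide {t g h x : ℕ} (ht : h ≤ t) (hg : 5 * t + 7 ≤ g) (hx : x ≤ 36 * (2 ^ t) ^ 4 * g ^ 2) :
    (x : ℝ) < 4 ^ g * (1 / 2 ^ h) := by
  have a : x * 2 ^ h < 4 ^ g := calc
    x * 2 ^ h ≤ 64 * (2 ^ t) ^ 4 * 2 ^ g * 2 ^ t := Nat.mul_le_mul (hx.trans (Nat.mul_le_mul
      (Nat.mul_le_mul_right _ (by norm_num)) (sq_le (by omega)))) (Nat.pow_le_pow_right two_pos ht)
    _ = 2 ^ (5 * t + 6 + g) := by ring
    _ < 2 ^ (2 * g) := Nat.pow_lt_pow_right one_lt_two (by omega)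
    _ = 4 ^ g := by rw [pow_mul]; norm_num
  rw [mul_one_div, lt_div_iff₀ (by positivity)]
  exact_mod_cast a

theorem log_h (a : ℕ) : Real.log (1 / 2 ^ a : ℝ)⁻¹ ≤ a := by
  rw [one_div, inv_inv, Real.log_pow]
  exact mul_le_of_le_one_right (Nat.cast_nonneg a) (by linarith [Real.log_two_lt_d9])

theorem dv (a V : ℕ) (V1 : 1 ≤ V) : (1 / 2 ^ (a + V) : ℝ) ≤ 1 / 2 ^ a / V := by
  have : (V : ℝ) ≤ 2 ^ V := by exact_mod_cast Nat.lt_two_pow_self.le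
  rw [div_div, pow_add]
  exact one_div_le_one_div_of_le (by positivity) (by gcongr)

theorem dn' {σ I κ : Type} [Fintype σ] [DecidableEq σ] [Fintype κ] [DecidableEq κ] {l s : ℕ}
    {q : Gq σ I κ l} (h : q.Ok s) : Dn (q.W' s) := fun μ k ν e => by
  rw [Gq.W', mem_filter, mem_full] at k ⊢
  exact ⟨(Finsupp.degree_mono e).trans k.1, h.dn _ k.2 _ (Finsupp.mapDomain_mono e)⟩

theorem num {n n1 N Z F V μ g G t : ℕ} (ht : t = n + 1 + 2 * N + Z + F + V + n1 * N)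
    (hg : 5 * t + 7 ≤ g) (mz : μ ≤ Z * g) (s1 : n1 + 2 ≤ N) (g3 : g ^ 4 ≤ G) :
    N ≤ G ∧ μ ≤ G ∧ n + N + V ≤ G ∧ (μ + (n + N) + V) * V ≤ G ∧
    V * (1 + μ + (n + N)) ≤ 36 * (2 ^ t) ^ 4 * g ^ 2 ∧ n1 * N + μ ≤ 36 * (2 ^ t) ^ 4 * g ^ 2 ∧
    4 * (F * (2 ^ (n + 1 + 2 * N) + μ + 1)) ^ 2 ≤ 36 * (2 ^ t) ^ 4 * g ^ 2 ∧
    μ + 3 + (2 * g + μ + 8) * (n1 * N) ≤ G ∧ n1 * (2 ^ (2 * g + μ + 4) + 1) + 2 ^ g ≤ 2 ^ G := by
  have t2 : t < 2 ^ t := Nat.lt_two_pow_self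
  have m2 : μ ≤ t * g := mz.trans (Nat.mul_le_mul_right _ (by omega))
  have m3 : μ ≤ 2 ^ t * g := m2.trans (Nat.mul_le_mul_right _ t2.le)
  have tg : t * g ≤ g ^ 2 := by rw [sq]; exact Nat.mul_le_mul_right _ (by omega)
  have g4 : 7 * g ^ 3 ≤ g ^ 4 := by
    rw [pow_succ g 3, mul_comm]; exact Nat.mul_le_mul_left _ (by omega)
  have g5 : g ^ 2 ≤ g ^ 3 := Nat.pow_le_pow_right (by omega) (by omega)
  have g6 : 7 * g ≤ g ^ 2 := by rw [sq]; exact Nat.mul_le_mul_right _ (by omega)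
  have g7 : ∀ k, k * g ^ 2 * g = k * g ^ 3 := fun k => by ring
  have u2 : 2 ^ t ≤ 2 ^ t * g := Nat.le_mul_of_pos_right _ (by omega)
  have u3 : ∀ x y, x ≤ 2 ^ t → y ≤ 3 * (2 ^ t * g) → 4 * (x * y) ^ 2 ≤ 36 * (2 ^ t) ^ 4 * g ^ 2 :=
    fun x y a b => (Nat.mul_le_mul_left 4 (Nat.pow_le_pow_left (Nat.mul_le_mul a b) 2)).trans_eq
      (by ring)
  have u4 : ∀ x, x ≤ 4 * x ^ 2 := fun x => (Nat.le_self_pow two_ne_zero x).trans (by omega)
  have v1 : (μ + (n + N) + V) * V ≤ 3 * g ^ 2 * g := Nat.mul_le_mul (by omega) (by omega)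
  have v2 : (2 * g + μ + 8) * (n1 * N) ≤ 5 * g ^ 2 * g := Nat.mul_le_mul (by omega) (by omega)
  have v3 := Nat.pow_le_pow_right two_pos (show n + 1 + 2 * N ≤ t by omega)
  rw [g7] at v1 v2
  have b : 2 ^ g ≤ 2 ^ (t + (2 * g + μ + 4)) := Nat.pow_le_pow_right two_pos (by omega)
  have d : 1 ≤ 2 ^ (2 * g + μ + 4) := Nat.one_le_two_pow
  have e : n1 * (2 ^ (2 * g + μ + 4) + 1) ≤ 2 ^ t * (2 * 2 ^ (2 * g + μ + 4)) :=
    Nat.mul_le_mul (by omega) (by omega)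
  have f : 2 ^ (t + (2 * g + μ + 4) + 2) ≤ 2 ^ G := Nat.pow_le_pow_right two_pos (by omega)
  rw [mul_left_comm, ← pow_add] at e
  rw [pow_add _ _ 2] at f
  exact ⟨by omega, by omega, by omega, by omega, (u4 _).trans (u3 _ _ (by omega) (by omega)),
    (one_mul _).ge.trans ((u4 _).trans (u3 _ _ (by omega) (by omega))),
    u3 _ _ (by omega) (by omega), by omega, by omega⟩

end Sn

open Sn in
theorem subn (h : SUBQ) (s M : ℕ) : SUBN s M := by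
  obtain ⟨c0, h⟩ := h s
  obtain ⟨C0, k0, -⟩ := mastA M
  obtain ⟨C1, k1, -, k2, -⟩ := mastA (M * (s + 1) ^ s)
  obtain ⟨C2, c2, k3⟩ := colN cola colw s M C1
  obtain ⟨c, c4, hc⟩ := Pl.ge (f := fun n => 5 * (n + 1 + 2 * (n * (s.factorial * s + (n + 1) ^ s)
    + 2) ^ (c0 + 1) + ((7 * (n * (s.factorial * s + (n + 1) ^ s)) * (n * (s.factorial * s +
      (n + 1) ^ s) + 1) + 2) * 2 ^ s + 3) + 3 * s * s.factorial + ((n * (s.factorial * s +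
        (n + 1) ^ s) + 2) ^ (c0 + 1) + 2) ^ c2 + n * (s.factorial * s + (n + 1) ^ s) *
      (n * (s.factorial * s + (n + 1) ^ s) + 2) ^ (c0 + 1)) + 7) (by pl) 4
  refine ⟨C0 + C2, c, fun σ I κ _ _ _ _ _ _ l n m g q T st B P κ0 κz H ok ls tb ty n2 a1 a2 a3 a4 a5
    a6 a7 a8 a9 b1 b2 rg b3 b4 => ?_⟩
  have hg := (hc n n2).trans b1
  have p1 : 1 ≤ (n + 1) ^ s := Nat.one_le_pow _ _ (by omega)
  have dg : ∀ a, (B.wd a).degree ≤ s := fun a => ok.dg _ (ty.wd a).1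
  have q1 : Fintype.card (sy B univ).N ≤ n * (n + 1) ^ s := (Du.card_sy B univ dg).trans
    (Nat.mul_le_mul a5 (Nat.pow_le_pow_left (by omega) _))
  have q2 : Fintype.card (T.Cw (FS σ s)) ≤ 2 ^ n * (n + 1) ^ s := (Fq.card_cw _ _ _ _).trans
    (Nat.mul_le_mul a6 ((Cn.card_full' σ s).trans (Nat.pow_le_pow_left (by omega) _)))
  have q3 := Nat.mul_le_mul_right (s.factorial * s) a2
  clear hc
  obtain ⟨n1, e1⟩ : ∃ x, x = n * (s.factorial * s + (n + 1) ^ s) := ⟨_, rfl⟩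
  rw [← e1] at hg
  have r0 : n * (n + 1) ^ s ≤ n1 := e1 ▸ Nat.mul_le_mul_left _ (by omega)
  have r1 : n * (s.factorial * s) ≤ n1 := e1 ▸ Nat.mul_le_mul_left _ (by omega)
  have r2 : n ≤ n1 := (Nat.le_mul_of_pos_right _ p1).trans r0
  have r3 : (n + 1) ^ s ≤ n1 := (Nat.le_mul_of_pos_left _ (by omega)).trans r0
  obtain ⟨N, eN⟩ : ∃ x, x = (n1 + 2) ^ (c0 + 1) := ⟨_, rfl⟩
  rw [← eN] at hg
  have s1 : n1 + 2 ≤ N := eN ▸ Nat.le_self_pow (by omega) _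
  have s2 : (n1 + 2) ^ c0 ≤ N := eN ▸ Nat.pow_le_pow_right (by omega) (by omega)
  obtain ⟨V, eV⟩ : ∃ x, x = (N + 2) ^ c2 := ⟨_, rfl⟩
  rw [← eV] at hg
  have V1 : 1 ≤ V := eV ▸ Nat.one_le_pow _ _ (by omega)
  obtain ⟨t, ht⟩ : ∃ t, t = n + 1 + 2 * N + ((7 * n1 * (n1 + 1) + 2) * 2 ^ s + 3) +
    3 * s * s.factorial + V + n1 * N := ⟨_, rfl⟩
  rw [← ht] at hg
  obtain ⟨f1, f2, f3, f4, f5, f6, f7, f8, f9⟩ := num ht hg (m1_le (s := s) (n := n1) (m := m) (g := g)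
    (by omega) (by omega) (b2.trans (Nat.mul_le_mul_right _ r2))) s1
    (Nat.pow_le_pow_right (by omega) c4)
  have t1 : n + N ≤ t := by omega
  have t2 : n + 1 + 2 * N ≤ g := by omega
  clear ht e1 eN
  have e0 : (0 : ℝ) < 1 / 2 ^ m1 s n1 m g := by positivity
  have b0 : (0 : ℝ) < 1 / 2 ^ (n + N) := by positivity
  have rg' : ∀ C' a' η', C' ≤ C0 + C2 → 1 / 2 ^ g ^ c ≤ a' → 1 / 2 ^ g ^ c ≤ η' →
      T.RgS st M C' N a' η' := fun C' a' η' x y z =>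
    rg.mono tb.stg.tri (by positivity) (h1 _) x f1 y z
  have bo := Pe.bo_sy (E := univ) ty.bo
  have dg' : ∀ x, ((sy B univ).wd x).degree ≤ s := fun x =>
    (Finsupp.degree_mapDomain _ _).trans_le (dg _)
  have cV : ((N : ℝ) + 2) ^ c2 = V := by rw [eV]; push_cast; rfl
  have rU := k3 σ T st (sy B univ) (4 ^ g) (1 / 2 ^ (n + N)) (1 / 2 ^ m1 s n1 m g) N tb bo dg'
    (by omega) (by omega) (by omega) b0 (h1 _) e0 (h1 _) (rg' _ _ _ (by omega)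
      (by rw [cV]; exact (hf f3).trans (dv _ V V1)) (by
        rw [cV, ← eV, one_div_mul_one_div, ← pow_add]
        refine (hf f4).trans ?_
        rw [pow_mul, ← _root_.one_div_pow]
        exact pow_le_pow_left₀ (by positivity) (dv _ V V1) _)) (by
      rw [cV]
      refine le_trans ?_ (wide t1 hg f5).le
      push_cast
      gcongr
      · exact log_h _
      · exact (log_h _).trans_eq (by push_cast; rfl))
  have sU := Ca.cE_stg tb bo dg' (w := 4 ^ g) (by positivity)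
  obtain ⟨κ', o, d1, d2⟩ := h σ I κ l M n1 N m g (n + 1 + 2 * N) q T st B P (4 ^ g) κ0 (1 / 2 ^ n)
    (1 / 2 ^ (n + N)) (1 / 2 ^ m1 s n1 m g) κz H ok ls tb ty (by omega) (by omega) (by omega)
    (by omega) (by omega) s2 b0 (by
      have : ((n1 : ℝ) + 2) ^ c0 ≤ 2 ^ N := by exact_mod_cast s2.trans Nat.lt_two_pow_self.le
      refine (mul_le_mul_of_nonneg_right this b0.le).trans_eq ?_
      rw [pow_add]; field_simp) a7 a8 a9 (by
      have a : Fintype.card (UA s T B (4 ^ g)).C ≤ 2 ^ n * N + N := by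
        refine (Fintype.card_sum (α := T.Cw (FS σ s)) (β := (sy B univ).N)).trans_le ?_
        exact Nat.add_le_add (q2.trans (Nat.mul_le_mul_left _ (by omega))) (by omega)
      have b : N ≤ 2 ^ N := Nat.lt_two_pow_self.le
      have d : N ≤ 2 ^ n * N := Nat.le_mul_of_pos_left _ (by positivity)
      have e := Nat.mul_le_mul_left (2 ^ n) b
      calc _ ≤ (2 * (2 ^ n * 2 ^ N)) * 2 ^ N := Nat.mul_le_mul (by omega) b
        _ = _ := by ring) t2 le_rfl (by exact_mod_cast (wide t1 hg f6).le)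
    (by exact_mod_cast wide t1 hg f7) e0.le le_rfl
    (hm k0 tb.stg e0 (h1 _) (rg' _ _ _ (by omega) (hf (by omega)) (hf f2)))
    (hm k1 sU e0 (h1 _) rU) (hp k2 sU e0 (h1 _) rU) b3 b4
  refine ⟨_, κ', o, hf (by omega), (hf (by omega)).trans a8, d1, (hf f8).trans (d2.trans
    ((TS.sh_tri tb.stg.cl (De.mr_ok (dn' ok) fun μ _ => b0.trans_le (d1 μ).1)).P_mono ?_))⟩
  rintro y ⟨k, Y, z⟩
  have R : (n1 * (2 ^ (2 * g + m1 s n1 m g + 4) + 1) + 2 ^ g : ℝ) ≤ 2 ^ g ^ c := by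
    exact_mod_cast f9
  exact ⟨k, Y, z.pt, z.om, z.cell, z.old, z.deg, fun a μ x y w => (z.err a μ x y w).trans R,
    fun j => Fq.rx_mono (z.rel j) R⟩

end Crest.Agent.N49.Su

end
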