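import Crest.Agent.N49.Su.Corq
import Crest.Agent.N49.Su.Exq
import Crest.Agent.N49.Su.Kill
import Crest.Agent.N49.Su.Fibq
import Crest.Agent.N49.Su.Cbq
import Crest.Agent.N49.Su.Wrd
import Crest.Agent.N49.Su.Kdg
import Crest.Agent.N49.Su.Alg
import Crest.Agent.N49.Sw.Rtr

/-!
# Row 49 (helper97): the core of the substitution step without hypotheses
-/

set_option autoImplicit false

namespace Crest.Agent.N49.Su

theorem corqA : CORQ := corq exq (kill exq) (fibq exq Sw.rtr) cbq wrd kdg (alg exq wrd)

end Crest.Agent.N49.Su
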