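import Crest.Agent.N49.Su.Df2
import Crest.Agent.N49.Su.All
import Crest.Agent.N49.Sw.All
import Crest.Agent.N49.Sw.Pmb

/-!
# Row 49 (helper97): the substitution step (glue)
-/

set_option autoImplicit false

open Matrix MvPolynomial Finset

noncomputable section

namespace Crest.Agent.N49.Su

open Po Tw Sd Sw TS

namespace Sq

theorem hf {j k : ℕ} (e : j ≤ k) : (1 : ℝ) / 2 ^ k ≤ 1 / 2 ^ j :=
  one_div_le_one_div_of_le (by positivity) (pow_le_pow_right₀ one_le_two e)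

theorem n1 {p : ℝ} {m g n k : ℕ} (h : 1 / 2 ^ m ≤ p) (e : k ≤ n) :
    1 / 2 ^ (m + (g + 2) * n + 3) ≤
      p / (2 * (3 * 2 ^ g) ^ k) - 2 / 2 ^ (m + (g + 2) * n + 3) := by
  have a : (3 * 2 ^ g : ℝ) ^ k ≤ 2 ^ ((g + 2) * n) := by
    rw [pow_mul]
    refine (pow_le_pow_right₀ (by linarith [one_le_pow₀ (M₀ := ℝ) one_le_two (n := g)]) e).trans
      (pow_le_pow_left₀ (by positivity) ?_ _)
    rw [pow_add]; linarith [pow_pos (two_pos (α := ℝ)) g]
  have b : 1 / 2 ^ m / (2 * 2 ^ ((g + 2) * n)) ≤ p / (2 * (3 * 2 ^ g) ^ k) :=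
    div_le_div₀ (le_trans (by positivity) h) h (by positivity) (by linarith)
  refine le_trans ?_ (sub_le_sub_right b _)
  rw [pow_add, pow_add]
  have : (0 : ℝ) < 2 ^ m := by positivity
  have : (0 : ℝ) < 2 ^ ((g + 2) * n) := by positivity
  rw [le_sub_iff_add_le, ← add_div, div_div, div_le_div_iff₀ (by positivity) (by positivity)]
  nlinarith [mul_pos ‹(0 : ℝ) < 2 ^ m› this]

theorem n2 {η : ℝ} {m k : ℕ} (h : η ≤ 1 / 2 ^ (m + 3)) (e : m + 3 ≤ k) :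
    1 / 2 ^ k ≤ 1 / 2 ^ m - 4 / 2 ^ (m + 4) - η := by
  have a := hf e
  have b : (1 : ℝ) / 2 ^ m = 8 * (1 / 2 ^ (m + 3)) := by rw [pow_add]; field_simp; norm_num
  have c : (4 : ℝ) / 2 ^ (m + 4) = 2 * (1 / 2 ^ (m + 3)) := by
    rw [pow_succ _ (m + 3)]; field_simp; norm_num
  have : (0 : ℝ) < 1 / 2 ^ (m + 3) := by positivity
  linarith

theorem evs {ι : Type} (f : ι → ℝ) (P : MvPolynomial ι ℝ) (r : ℝ) :
    eval f P - r = eval f (P - MvPolynomial.C r) := by simp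

variable {σ : Type} [Fintype σ] [DecidableEq σ] {E : Finset σ}

/-- multiply by a transposition -/
def sw (π : GE E) {a b : σ} (ha : a ∈ E) (hb : b ∈ E) : GE E :=
  ⟨π.1 * Equiv.swap a b, Pe.mem_GE.2 fun t k => by
    rw [Equiv.Perm.mul_apply, Equiv.swap_apply_of_ne_of_ne (by rintro rfl; exact k ha)
      (by rintro rfl; exact k hb), Pe.mem_GE.1 π.2 t k]⟩

end Sq

open Sq Classical in
theorem subq (hE : EWQ) (hB : BIW) (hR : RXW) (hP : PTQ) (hX : PERR) (hD : DSQ) : SUBQ :=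
  fun s => by
  obtain ⟨c0, hC⟩ := corqA s
  refine ⟨c0 + s, ?_⟩
  intro σ I κ _ _ _ _ _ _ l M n N m g g0 q T st B P w κ0 a b η κz H o ls hT ty cσ cI cκ cm cB hN b0
    ba hz a0 a1 cU g0g wg w1 w2 η0 η1 hM0 hM hH e0 e1
  set m3 := m + (g + 2) * n + 3 with hm3
  have two : 1 ≤ n + 2 := by omega
  have hN0 : (n + 2) ^ c0 ≤ N := (Nat.pow_le_pow_right two (by omega)).trans hN
  have hNs : (Fintype.card σ + 1) ^ s ≤ N := (Nat.pow_le_pow_left (by omega) _).trans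
    ((Nat.pow_le_pow_right two (by omega)).trans hN)
  have r2 : (1 : ℝ) ≤ n + 2 := by linarith [n.cast_nonneg (α := ℝ)]
  have ba0 : (n + 2) ^ c0 * b ≤ a :=
    (mul_le_mul_of_nonneg_right (pow_le_pow_right₀ r2 (by omega)) b0.le).trans ba
  have ab : b ≤ a := (le_mul_of_one_le_left b0.le (one_le_pow₀ r2)).trans ba
  have b1 : b ≤ 1 := ab.trans (a0.trans a1)
  have l1 : (m3 * (n + 1) + 2) * 2 ^ l + 3 ≤ m1 s n m g :=
    Nat.add_le_add_right (Nat.mul_le_mul_left _ (Nat.pow_le_pow_right two_pos ls)) 3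
  have l2 : m3 + 5 ≤ m1 s n m g := by
    have := Nat.le_mul_of_pos_right (m3 * (n + 1) + 2) (show 0 < 2 ^ l by positivity)
    have := Nat.le_mul_of_pos_right m3 (show 0 < n + 1 by omega)
    omega
  have l3 : (m3 : ℝ) + 5 ≤ m1 s n m g := by exact_mod_cast l2
  have l4 : (m : ℝ) ≤ m3 := by exact_mod_cast (show m ≤ m3 by omega)
  have nN : (0 : ℝ) ≤ n * N := by positivity
  have m0 : (0 : ℝ) ≤ m := m.cast_nonneg
  have wb : 1 ≤ w * b := by linarith
  have w0 : 0 < w := by nlinarith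
  have dB : ∀ a, (B.wd a).degree ≤ s := fun a => o.dg _ (ty.wd a).1
  have k0 : 0 < κ0 := b0.trans_le (ab.trans a0)
  obtain ⟨⟨p1, p2, -, p3⟩, -⟩ := perm σ s M T st B w κ0 univ hT ty.bo dB w0 k0
  obtain ⟨p4, p5⟩ := p3 (g1 univ) rfl
  obtain ⟨⟨u1, u2⟩, -, u3⟩ := cola σ s M T st (sy B univ) w hT p1 p2 w0
  have cW : #q.W ≤ N := (card_le_card fun μ k => mem_full.2 (o.dg μ k)).trans
    ((Cn.card_full' _ _).trans hNs)
  have cB' : (Fintype.card (sy B univ).N : ℝ) * N ≤ n * N := by gcongr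
  have ok0 : (MR (fun _ => ()) q.W (dk κz)).Ok :=
    Pm.ok _ o.dn fun μ _ => b0.trans_le (ab.trans (hz μ).1)
  obtain ⟨c, c1, -, c2⟩ := inbA σ s M m3 g T st (sy B univ) B (syn B univ (g1 univ)) w id q.W κz
    (T.tw0 _) (fun y => (H.indicator 1 y : ℝ)) hT p1 ty.bo p2 w0 o.dn (hT.stg.adm ok0) p4 p5
    (fun a => ⟨(ty.wd a).1, fun _ _ => rfl⟩) (fun μ _ => ⟨by
      have : (Fintype.card (sy B univ).N : ℝ) * #q.W ≤ n * N := by gcongr
      have := mul_le_mul_of_nonneg_left (ab.trans (hz μ).1) w0.le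
      linarith, (mul_le_of_le_one_right w0.le (hz μ).2).trans wg⟩)
    (fun y => by by_cases k : y ∈ H <;> simp [k])
  rw [(u3 σ id q.W (dk κz)).2, Cr.ec_tw0, Cr.ec_tw0] at c2
  replace c2 := (n1 (g := g) (e0.trans ((le_abs_self _).trans_eq ((Complex.norm_real _).symm.trans
    (congrArg norm (Ec_ofReal (T.sh _) (H.indicator 1))).symm)))
    ((Fintype.card_le_of_injective _ p4).trans cB)).trans c2
  let I' := (j : I) × (GE (q.E j) × Fin l)
  let q' : Gq σ I' κ l := ⟨q.x, q.kp, q.bl, fun c => q.ec c.1, q.W, q.mc⟩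
  have ew := fun j => hE σ I κ l s q j o
  let π' : ∀ c : I', GE (q.E c.1) := fun c =>
    sw c.2.1 ((ew c.1).2.2.2.2.2.1 c.2.2) (ew c.1).2.2.2.1
  have bw := hB σ I κ l s M N m (m + 4) q T st B P w κ0 b η o hT ty b0 (ab.trans a0) hNs (by
    have := mul_le_mul_of_nonneg_left (ab.trans a0) w0.le
    push_cast; linarith) hH e1
  have cI' : Fintype.card I' ≤ n := by
    rw [Fintype.card_sigma]
    refine (sum_le_card_nsmul _ _ (s.factorial * s) fun j _ => ?_).trans cI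
    rw [Fintype.card_prod, Fintype.card_fin]
    exact Nat.mul_le_mul (ew j).2.2.2.2.1 ls
  have hG : ∀ c : I', (ug B univ (gi _ c.2.1) (P c.1) -
      ug B univ (gi _ (π' c)) (P c.1)).IsWeightedHomogeneous Prod.snd (q.w (q.ec c.1)) :=
    fun c => (bw c.1 c.2.1 c.2.1).1.sub (bw c.1 (π' c) c.2.1).1
  obtain ⟨κ', k1, k2, k3, k4⟩ := hC σ I' κ _ l n N _ m3 q' (UA s T B w) _ (fm s T _ w) a b η κ0 κz
    _ (fun c => ug B univ (gi _ c.2.1) (P c.1) - ug B univ (gi _ (π' c)) (P c.1))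
    ⟨o.inj, o.x, fun c => o.ec c.1, o.dn, o.one, o.dg, o.tv, o.xx, fun c => o.w c.1⟩ cσ cI' cκ cm
    hN0 b0 ba0 hz a0 a1 u1 u2 η0 (η1.trans (hf l1)) hM hH (fun y => by
      rw [norm_mul, norm_mul, Complex.norm_real, Complex.norm_real, Real.norm_of_nonneg (c1 _).1]
      refine mul_le_one₀ (mul_le_one₀ ?_ (c1 _).1 (c1 _).2) (norm_nonneg _) ?_
      · by_cases k : res s T _ w id q.W _ y ∈ H <;> simp [k]
      · split_ifs <;> simp) hG c2 fun c => (n2 (η1.trans (hf (by omega))) (by omega)).trans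
        ((bw c.1 c.2.1 (π' c)).2 _ ((ew c.1).2.2.2.2.2.1 c.2.2) (o.x _) rfl)
  obtain ⟨o1, o2, o3⟩ := outA σ _ s M N (m1 s n m g) g 0 T st (sy B univ) w b η q.cl (q.W' s)
    (dk κ') _ hT p1 p2 k2 k3 (fun μ _ => (if_pos rfl).trans_le (k1 μ).2) b0 wb wg η0
    (η1.trans ((hf (j := 3) (by omega)).trans (by norm_num))) hM0 hM
    ((Fintype.card_subtype_le _).trans ((Fintype.card_prod _ _).trans_le
      ((Nat.mul_le_mul_left _ k3.card).trans (cU.trans (Nat.pow_le_pow_right two_pos g0g)))))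
    ((hf l1).trans k4)
  have pq := fun y => hP σ I κ l s M q T st B P w (dk κz) (dk κ') y o hT ty
  obtain ⟨o', ho⟩ := (pq 0).2.2.2.2 o1
  have ok1 : (MR (fun _ => ()) (q.W' s) (dk κ')).Ok := Pm.ok _ k2 fun μ _ => b0.trans_le (k1 μ).1
  refine ⟨κ', o', k1, ((hf ?_).trans o3).trans ((sh_tri hT.stg.cl ok1).P_mono ?_)⟩
  · refine Nat.add_le_add_left (Nat.mul_le_mul_left _ ((Fintype.card_subtype_le _).trans
      ((Fintype.card_prod _ _).trans_le (Nat.mul_le_mul cB k3.card)))) _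
  rintro _ ⟨y, ⟨y1, y2⟩, rfl, y3, y4⟩
  obtain ⟨q1, q2, q3, q4, -⟩ := pq y
  have y5 : ∀ x, |eval (Sum.elim (ex T _ id (zc (res s T _ w q.cl (q.W' s) (dk κ') y)))
      fun x => (nw s T _ w q.cl (q.W' s) (dk κ') y x : ℤ)) ((sp (sy B univ) q.cl (q.W' s)).Θ x) -
        o1 x - (nw s T _ w q.cl (q.W' s) (dk κ') y x : ℤ)| ≤ 1 := fun x => by
    have := y4 x
    rw [Bk.ev, Bk.lf, ← y3] at this
    refine le_trans (le_of_eq ?_) (this.trans (by norm_num))
    exact congrArg (fun z : ℝ => |z - _|) (evs _ _ _)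
  have R0 : (0 : ℝ) ≤ 2 ^ g0 + m1 s n m g + 1 := by positivity
  have R1 : (3 * s * s.factorial * (2 ^ g0 + m1 s n m g + 1) : ℝ) ≤ 2 ^ g := by
    refine (pow_le_pow_iff_left₀ (by positivity) (by positivity) two_ne_zero).1 ?_
    have : w * b ≤ 4 ^ g := (mul_le_of_le_one_right w0.le b1).trans wg
    rw [← pow_mul, mul_comm g 2, pow_mul, show (2 : ℝ) ^ 2 = 4 by norm_num]
    nlinarith [sq_nonneg (3 * s * s.factorial * (2 ^ g0 + m1 s n m g + 1) : ℝ)]
  have kf0 : ∀ μ, b ≤ q.kf κ0 b μ := fun μ => by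
    unfold Gq.kf; split_ifs
    · exact ab.trans a0
    · exact le_rfl
  have z1 := left_ne_zero_of_mul y1
  have z2 := right_ne_zero_of_mul y1
  refine ⟨kq s T B w _ _ _ y, yq s T B w _ _ _ y, ?_, fun a => ?_, ho y y5, q3, q4,
    fun a μ k _ d => ?_, fun j => ?_⟩
  · rw [← q1]
    exact by_contra fun k => left_ne_zero_of_mul z1 (congrArg _ (Set.indicator_of_notMem k 1))
  · rw [← q1, ← q2]
    exact ((ite_ne_right_iff.1 z2).1 a).symm
  · refine (hX σ _ s M T st B w (2 ^ (2 * g + m1 s n m g + 4) + 1) q.cl _ _ y hT ty.bo dB k2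
      (fun μ k => ty.sq _ (mem_filter.1 k).2) (by positivity) (fun x => ?_) a μ k d).trans ?_
    · have := abs_le.1 (y5 x)
      have := abs_le.1 (o2 x)
      exact abs_le.2 ⟨by linarith, by linarith⟩
    · refine le_add_of_le_of_nonneg ?_ (by positivity)
      gcongr
  · refine Sr.rx_cg (hD σ I κ l s M q T st B P w b _ (q.kf κ0 b) _ y j o hT ty w0 b0 kf0 R0 w2
      fun π π1 t ht tx e => ?_) (le_add_of_nonneg_of_le (by positivity) R1) fun _ => rfl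
    obtain ⟨i, rfl⟩ := (ew j).2.2.2.2.2.2.1 t ht tx
    obtain rfl : π1 = π' ⟨j, π, i⟩ := Subtype.ext e
    refine hR σ I κ _ l s _ q _ _ (fm s T _ w) _ _ _ y j _ o u1 u2
      (fun μ => b0.trans_le (kf0 μ)) R0 (hG ⟨j, π, i⟩) (Sr.rx_cg (y2 ⟨j, π, i⟩) ?_ fun _ => rfl)
    have : ((Fintype.card (UA s T B w).C * N : ℕ) : ℝ) ≤ (2 ^ g0 : ℕ) := by exact_mod_cast cU
    have : (((m3 * (n + 1) + 2) * 2 ^ l + 3 : ℕ) : ℝ) ≤ m1 s n m g := by exact_mod_cast l1
    push_cast at *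
    linarith

end Crest.Agent.N49.Su

end
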