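import Crest.Agent.N49.Su.Exq
import Crest.Agent.N49.Sw.Altf
import Crest.Agent.N49.Sw.Sbc
import Crest.Agent.N49.Sw.Box
import Crest.Agent.N49.Sw.Prod

/-!
# Row 49 (helper67): the alternating sums of the copies
-/

set_option autoImplicit false

open Matrix MvPolynomial Finset

noncomputable section

namespace Crest.Agent.N49.Su

open Po Tw Sd Sw

namespace A3

theorem cj_ee {l : ℕ} (ω : Fin l → Bool) (t : ℝ) :
    cj ω (ee t) = ee ((-1) ^ #{i | ω i = true} * t) := by
  unfold cj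
  split_ifs with h
  · rw [h.neg_one_pow, one_mul]
  · rw [(Nat.not_even_iff_odd.1 h).neg_one_pow, ee, ee, ← Complex.exp_conj]
    congr 1
    simp [Complex.conj_ofNat]

theorem ee_sum {ι : Type} (S : Finset ι) (t : ι → ℝ) : ∏ i ∈ S, ee (t i) = ee (∑ i ∈ S, t i) := by
  classical
  induction S using Finset.induction_on with
  | empty => simp [ee_zero]
  | insert a S h ih => rw [prod_insert h, sum_insert h, ee_add, ih]

theorem smat_congr {τ τ' : Type} [Fintype τ'] {φ φ' : τ → τ' → ℤ} (ν : τ' →₀ ℕ) {μ : τ →₀ ℕ}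
    (h : ∀ a ∈ μ.support, φ a = φ' a) : smat φ ν μ = smat φ' ν μ := by
  rw [smat, smat, lsub, lsub, aeval_monomial, aeval_monomial]
  exact congrArg (fun P => coeff ν (_ * P)) (Finsupp.prod_congr fun a k => by rw [h a k])

theorem ev_congr {C τ : Type} {G : MvPolynomial (VV C τ) ℝ} {w : τ →₀ ℕ}
    (hG : G.IsWeightedHomogeneous Prod.snd w) {z z' : VV C τ → ℝ}
    (h : ∀ v : VV C τ, v.2 ≤ w → z v = z' v) : eval z G = eval z' G := by
  classical
  rw [eval_eq, eval_eq]
  refine sum_congr rfl fun m hm => congrArg _ (prod_congr rfl fun v hv => ?_)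
  rw [h v]
  rw [← hG (mem_support_iff.1 hm), Finsupp.weight_apply, Finsupp.sum]
  refine le_trans ?_ (single_le_sum (f := fun v => m v • v.2) (fun _ _ => bot_le) hv)
  intro a
  have := Nat.one_le_iff_ne_zero.2 (Finsupp.mem_support_iff.1 hv)
  simpa using Nat.le_mul_of_pos_left _ this

end A3

open A3 in
theorem alg3 (hW : WRD) (σ I κ C : Type) [Fintype σ] [DecidableEq σ] [Fintype I] [DecidableEq I]
    [Fintype κ] [DecidableEq κ] [DecidableEq C] (l s : ℕ) (q : Gq σ I κ l) (U : TS σ)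
    (fm : U.C → C) (κ0 b : ℝ) (κz : (σ →₀ ℕ) → ℝ) (K : Kn σ) (K' : Kn (σ ⊕ κ × Bool))
    (y : U.Cw (q.CQ s κz κ0 b) → ℤ) (o : q.Ok s) (c : I) (G : MvPolynomial (VV C σ) ℝ)
    (hG : G.IsWeightedHomogeneous Prod.snd (q.w (q.ec c))) :
    ∏ ω : Fin l → Bool, cj ω (ee (eval (ex U _ fm (zc (hs U (MR id q.W K) (pr (some c))
      (hs U (MR (id ∘ Prod.snd) q.WQ (dk (vq κz κ0))) (fwF q.bl q.lam ω) y)))) G)) =
    ee (eval (ex U _ fm (zc (rq U _ (MR q.cl (q.We s (q.ec c)) K') (q.i1 ∘ q.ic c) y)))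
      (sbp q.r1 (q.We s (q.ec c)) G)) := by
  obtain ⟨w1, -, -, -, w5⟩ := hW σ I κ l s q o
  replace w5 := (w5 c).1
  let e : Fin l → σ := fun i => q.kp (q.ec c i)
  have he : Function.Injective e := fun i j k => by
    rw [← o.ec c i, o.inj k, o.ec]
  have xe : q.x ∉ Set.range e := fun ⟨i, k⟩ => o.x _ k
  let lm : κ → σ → ℤ := fun k a => q.lam k (some c, a)
  have l1 : ∀ k a, lm k a ≠ 0 → a = q.kp k ∧ q.ec c (q.bl k) = k := fun k a h => by
    have : a = q.kp k ∧ q.on (some c) k := by_contra fun n => h (if_neg n)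
    exact ⟨this.1, this.2 c rfl⟩
  have l2 : ∀ i, lm (q.ec c i) = Pi.single (e i) 1 := fun i => funext fun a => by
    have : q.on (some c) (q.ec c i) := fun c' k => by cases k; rw [o.ec]
    simp [lm, Gq.lam, this, Pi.single_apply, e]
  let φ : (Fin l → Bool) → (Option I × σ) ⊕ κ × Bool → σ → ℤ := fun ω =>
    Sum.elim (pr (some c)) fun i => if i.2 = ω (q.bl i.1) then lm i.1 else 0
  let col : (Option I × σ) ⊕ κ × Bool → σ := Sum.elim (id ∘ Prod.snd) fun i => q.kp i.1
  have pc : ∀ (t : Option I × σ) a, pr (some c) t a ≠ 0 → t.1 = some c ∧ t.2 = a := fun t a h => by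
    unfold pr at h
    by_cases k : t.1 = some c
    · rw [if_pos k] at h
      exact ⟨k, by_contra fun n => h (Pi.single_eq_of_ne' n _)⟩
    · rw [if_neg k] at h; exact absurd rfl h
  have φc : ∀ ω t a, φ ω t a ≠ 0 → col t = id a := fun ω t a h => by
    rcases t with t | ⟨k, β⟩
    · exact (pc t a h).2
    · by_cases z : β = ω (q.bl k)
      · exact (l1 k a (by simpa [φ, z] using h)).1.symm
      · exact absurd (by simp [φ, z]) h
  have cmp : ∀ ω, (fun t a => ∑ u, fwF q.bl q.lam ω t u * pr (some c) u a) = φ ω := fun ω =>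
    funext₂ fun t a => by
      rcases t with t | ⟨k, β⟩
      · simp [fwF, φ, Pi.single_apply]
      · by_cases z : β = ω (q.bl k)
        · simp only [fwF, φ, Sum.elim_inr, z, if_true]
          rw [sum_eq_single (some c, a)]
          · simp [pr, lm]
          · intro u _ n
            rw [show pr (some c) u a = 0 from by_contra fun h => n (Prod.ext (pc u a h).1 (pc u a h).2),
              mul_zero]
          · simp
        · simp [fwF, φ, z]
  set z := ex U (q.CQ s κz κ0 b) fm (zc y) with hz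
  have a1 : ∀ ω, eval (ex U _ fm (zc (hs U (MR id q.W K) (pr (some c))
      (hs U (MR (id ∘ Prod.snd) q.WQ (dk (vq κz κ0))) (fwF q.bl q.lam ω) y)))) G =
      eval (sbv (φ ω) (WXF q.bl s (q.Wt s) l) z) G := fun ω => by
    rw [Sb.hs_hs (col' := id ∘ Prod.snd) (col'' := id) (W' := q.WQ) (W'' := q.W)
      (fun ν k μ h => Pd.mem_WP.2 ⟨some c, ν, k, (Pd.smat_wd _ _ _ h).symm⟩)
      fun t a h => (pc t a h).2, cmp]
    exact ev_congr hG fun v k => Sb.ex_hs fm (φc ω) y v.1 (o.dn _ (o.w c) _ k)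
  have we : ∀ i, q.w (q.ec c) (e i) = 1 := fun i => by
    rw [Gq.w, Finsupp.add_apply, Finsupp.finsetSum_apply, sum_eq_single i,
      Finsupp.single_eq_of_ne (o.x _), Finsupp.single_eq_same]
    · exact fun j _ n => Finsupp.single_eq_of_ne fun k => n (he k).symm
    · simp
  have a2 := altf _ _ _ C l q.bl e (pr (some c)) lm (WXF q.bl s (q.Wt s) l) z _ G he
    (fun k a h => by rw [(l1 k a h).1]; exact congrArg q.kp (l1 k a h).2.symm) hG we
  simp only [a1, cj_ee]
  rw [ee_sum, a2, Eq0.ev_sbp]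
  refine congrArg ee (ev_congr hG fun v hv => ?_)
  set ψ : (Option I × σ) ⊕ κ × Bool → σ → ℤ := Sum.elim
    (fun a b => if b ∈ Set.range e then 0 else pr (some c) a b) fun i : κ × Bool =>
      if i.2 then -lm i.1 else lm i.1 with hψ
  let ι := q.i1 ∘ q.ic c
  have ii : Function.Injective ι := w1.inj.comp w5.inj
  have ix : ι (.inl q.x) = .inl (some c, q.x) := by simp [ι, Gq.ic, Gq.i1]
  have ir : ∀ h, ι (.inr h) = .inr h := fun h => by simp [ι, Gq.ic, Gq.i1]
  have ic : ∀ t, col (ι t) = q.cl t := fun t => by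
    rcases t with a | h
    · by_cases k : a = q.x
      · rw [k, ix]; rfl
      · simp [ι, Gq.ic, Gq.i1, k, col, Gq.cl]
    · rw [ir]; rfl
  have mS : ∀ t, t ∈ q.Se (q.ec c) ↔ t = .inl q.x ∨ ∃ i β, t = .inr (q.ec c i, β) := fun t => by
    simp [Gq.Se, eq_comm]
  have ψr : ∀ t ∈ q.Se (q.ec c), (ψ ∘ ι) t = q.r1 t := fun t k => by
    rcases (mS t).1 k with rfl | ⟨i, β, rfl⟩
    · funext a
      rw [Function.comp, ix]
      by_cases n : a ∈ Set.range e
      · have : a ≠ q.x := fun k => xe (k ▸ n)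
        simp only [hψ, Sum.elim_inl, if_pos n, Gq.r1, Pi.single_eq_of_ne this]
      · simp only [hψ, Sum.elim_inl, if_neg n, Gq.r1, pr, if_true]
    · rw [Function.comp, ir]
      simp [hψ, Gq.r1, l2, e]
  have ψc : ∀ t a, ψ t a ≠ 0 → col t = id a ∧ (a = q.x ∨ a ∈ Set.range e →
      ∃ t' ∈ q.Se (q.ec c), ι t' = t) := fun t a h => by
    rcases t with t | ⟨k, β⟩
    · have n : a ∉ Set.range e := fun n => h (by simp only [hψ, Sum.elim_inl, if_pos n])
      have p := pc t a (by simpa only [hψ, Sum.elim_inl, if_neg n] using h)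
      refine ⟨p.2, fun k => ⟨_, (mS _).2 (.inl rfl), ?_⟩⟩
      rw [ix, ← p.1, ← k.resolve_right n, ← p.2]
    · have p := l1 k a fun n => h (by cases β <;> simp [hψ, n])
      exact ⟨p.1.symm, fun _ => ⟨_, (mS _).2 (.inr ⟨q.bl k, β, rfl⟩), by rw [ir, p.2]⟩⟩
  have ws : ∀ a, q.w (q.ec c) a ≠ 0 → a = q.x ∨ a ∈ Set.range e := fun a h => by
    by_contra n
    rw [not_or] at n
    refine h ?_
    rw [Gq.w, Finsupp.add_apply, Finsupp.finsetSum_apply, Finsupp.single_eq_of_ne n.1, zero_add]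
    exact sum_eq_zero fun i _ => Finsupp.single_eq_of_ne fun k => n.2 ⟨i, k.symm⟩
  have mW : ∀ ν : σ ⊕ κ × Bool →₀ ℕ, ν.support ⊆ q.Se (q.ec c) →
      (ν ∈ q.We s (q.ec c) ↔ ν.mapDomain ι ∈ WXF q.bl s (q.Wt s) l) := fun ν k => by
    rw [w5.mem, w1.mem, ← Finsupp.mapDomain_comp]
    simp [k, ι]
  symm
  refine sum_of_injOn (Finsupp.mapDomain ι) (Finsupp.mapDomain_injective ii).injOn
    (fun ν k => (mW ν ((w5.mem ν).1 k).2).1 k) (fun μ hμ n => ?_) fun ν k => ?_
  · rw [show smat ψ v.2 μ = 0 from by_contra fun h => n ?_]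
    · simp
    have sp : ∀ t ∈ μ.support, ∃ t' ∈ q.Se (q.ec c), ι t' = t := fun t ht => by
      obtain ⟨a, ha⟩ := Function.ne_iff.1 fun z0 => Finsupp.mem_support_iff.1 ht (Bx.smat_zero h z0)
      refine (ψc t a ha).2 (ws a fun z0 => ?_)
      have k := Sh.smat_col (fun t a h => (ψc t a h).1) h
      rw [Finsupp.mapDomain_id] at k
      have k2 := hv a
      rw [z0, k, ← show col t = a from (ψc t a ha).1] at k2
      rw [Finsupp.mapDomain, Finsupp.sum_apply, Finsupp.sum] at k2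
      have := (single_le_sum (f := fun u => Finsupp.single (col u) (μ u) (col t))
        (fun _ _ => Nat.zero_le _) ht).trans k2
      exact Finsupp.mem_support_iff.1 ht (by simpa using this)
    have e1 := Finsupp.mapDomain_comapDomain ι ii μ fun t ht => by
      obtain ⟨t', -, k⟩ := sp t ht; exact ⟨t', k⟩
    refine ⟨_, (mW _ fun t ht => ?_).2 (e1.symm ▸ hμ), e1⟩
    obtain ⟨t', k, k'⟩ := sp (ι t) (by simpa using ht)
    exact ii k' ▸ k
  · rw [Bx.smat_ren, smat_congr v.2 fun t ht => ψr t (((w5.mem ν).1 k).2 ht)]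
    congr 1
    rw [(exq.2 σ _ _ C ℝ U fm col _ _ q.cl _ K' ι ic ii).2.2.1 y]
    exact Eq0.ex_rq U fm ic (zc y) v.1 k

end Crest.Agent.N49.Su

end
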