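import Crest.Agent.N49.Su.Df2
import Crest.Agent.N49.Su.Kill
import Crest.Agent.N49.Su.Exq
import Crest.Agent.N49.Sw.Enl
import Crest.Agent.N49.Sw.Coln

/-!
# Row 49 (helper64): the biases in the common tower on the common ring
-/

set_option autoImplicit false

open Matrix MvPolynomial Finset

noncomputable section

namespace Crest.Agent.N49.Su

open Po Tw Sd Sw

namespace B2

/-- the letters outside `E` do not matter -/
theorem bi_k {σ C : Type} [Fintype σ] [DecidableEq σ] [DecidableEq C] {U : TS σ} {st : U.C → ℕ}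
    {M N s : ℕ} {κ b η : ℝ} (fm : U.C → C) {W W' : Finset (σ →₀ ℕ)} {E : Finset σ}
    (sb : Sub id E W W') (dn : Dn W) (dg : ∀ μ ∈ W, μ.degree ≤ s)
    (one : ∀ a, Finsupp.single a 1 ∈ W) (b0 : 0 < b) (bk : b ≤ κ)
    (hN : (Fintype.card σ + 1) ^ s ≤ N) (hU : U.Stg st M) (hp : U.HP st N b η)
    (Q : MvPolynomial (VV C σ) ℝ) (hQ : ∀ v ∈ Q.vars, v.2.support ⊆ E) :
    bi U (MR id W' (dk fun _ => κ)) fm Q ≤ bi U (MR id W (dk fun _ => κ)) fm Q + η := by
  have sz : (MR id W (dk fun _ => κ)).Sz N b :=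
    Sh.mono_sz dn (kb_dk (b := κ) fun _ _ => ⟨bk, le_rfl⟩) b0 (Sh.dk_blk _)
      ((card_le_card fun μ h => mem_full.2 (dg μ h)).trans ((Cn.card_full' σ s).trans hN))
  obtain ⟨-, sz', p⟩ := kill' σ σ σ U st M N s b η id W _ id W' (dk fun _ => κ) id E sb
    (fun _ => rfl) sz dn dg (fun a _ => one a)
    (fun ν _ ν' _ _ _ => by rw [Finsupp.mapDomain_id, Finsupp.mapDomain_id]) hN hU hp
  have q := p.Ec (TS.sh_tri hU.cl sz.toOk) (TS.sh_tri hU.cl sz'.toOk) (B := 1)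
    (g := fun y => ee (eval (ex U (MR id W' (dk fun _ => κ)) fm (zc y)) Q))
    fun y => (norm_ee _).le
  rw [one_mul, norm_sub_rev] at q
  have r := sub_le_iff_le_add'.1 ((norm_sub_norm_le _ _).trans q)
  refine r.trans (add_le_add (congrArg norm (congrArg _ (_root_.funext fun y =>
    congrArg ee (Enl.ev_congr ?_)))).le le_rfl)
  rintro ⟨c, ν⟩ hv
  obtain ⟨x1, -, x3, -⟩ := exq.2 σ σ σ C ℝ U fm id W (dk fun _ => κ) id W' (dk fun _ => κ) id
    (fun _ => rfl) Function.injective_id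
  by_cases h : ν ∈ W'
  · have a := x1 (zc y) c ν h
    rw [Finsupp.mapDomain_id, ← x3 y] at a
    exact a
  · exact (Enl.ex_zero U fm _ c h).trans (Enl.ex_zero U fm _ c fun k =>
      h ((sb.mem ν).2 ⟨by rwa [Finsupp.mapDomain_id], hQ _ hv⟩)).symm

end B2

/-- **BIW** -/
theorem biw2 (hE : EWQ) : BIW := by
  classical
  intro σ I κ _ _ _ _ _ _ l s M N m m' q T st B P w κ0 b η o hT ty b0 bk hN hw hp hb j π π'
  obtain ⟨e1, -, -, ex, -, -, -, sb⟩ := hE σ I κ l s q j o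
  have k0 : 0 < κ0 := b0.trans_le bk
  have wk : 0 < w * κ0 := lt_of_lt_of_le (by positivity) hw
  have w0 : 0 < w := pos_of_mul_pos_left wk k0.le
  have hd : ∀ a, (B.wd a).degree ≤ s := fun a => o.dg _ (ty.wd a).1
  have hP : (P j).IsWeightedHomogeneous (B.wg Prod.snd) (wE (q.E j)) := e1 ▸ ty.hom j
  obtain ⟨-, p2, p3⟩ := perm σ s M T st B w κ0 (q.E j) hT ty.bo hd w0 k0
  obtain ⟨⟨b1, b2, -⟩, -⟩ := perm σ s M T st B w κ0 univ hT ty.bo hd w0 k0
  refine ⟨?_, fun t ht tx e => ?_⟩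
  · have := Pe.hom_rn (Prod.map (Sum.map id (Enl.jn B (q.E j))) id) id (w' := Prod.snd)
      (fun _ => Finsupp.mapDomain_id.symm) (p2 π _ hP)
    rwa [Enl.ug_jn, Finsupp.mapDomain_id, e1] at this
  let ρ : GE (q.E j) := ⟨Equiv.swap t q.x, Pe.mem_GE.2 fun a n =>
    Equiv.swap_apply_of_ne_of_ne (fun k => n (k ▸ ht)) fun k => n (k ▸ ex)⟩
  have h0 := (hb j ρ t ht tx rfl).trans_eq (p3 π (g1 _) ρ π π' (P j) (mul_one _).symm e).symm
  have cW : #(W0 s (q.E j)) ≤ N := (card_le_card ((filter_subset _ _).trans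
    (filter_subset _ _))).trans ((Cn.card_full' σ s).trans hN)
  have q1 := Enl.bi_sub (m := m') id hT (Pe.bo_sy (E := q.E j) ty.bo) b1 b2 (Enl.jn_inj B _)
    (fun _ => rfl) (Enl.Θ_jn B _ ty.bo.ok) (Enl.dn_W0 (s := s) (E := q.E j)) k0
    (le_trans (by gcongr) hw) (ug B _ π (P j) - ug B _ π' (P j))
  rw [map_sub, Enl.ug_jn, Enl.ug_jn] at q1
  have q2 := B2.bi_k (fm s T _ w) (sb ty.sq) o.dn o.dg o.one b0 bk hN
    (cola σ s M T st _ w hT b1 b2 w0).1.2 hp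
    (ug B univ (gi _ π) (P j) - ug B univ (gi _ π') (P j)) fun v hv =>
      (mem_union.1 (vars_sub_subset _ hv)).elim (Enl.vars_ug B _ π hP v) (Enl.vars_ug B _ π' hP v)
  linarith

end Crest.Agent.N49.Su

end
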