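import Crest.Agent.N49.Su.Subq
import Crest.Agent.N49.Su.Subn
import Crest.Agent.N49.Su.Ewq
import Crest.Agent.N49.Su.Biw2
import Crest.Agent.N49.Su.Ptq
import Crest.Agent.N49.Su.Perr
import Crest.Agent.N49.Su.Dsq
import Crest.Agent.N49.Su.Rxw

/-!
# Row 49 (helper97): the substitution step (unconditional)
-/

set_option autoImplicit false

namespace Crest.Agent.N49.Su

theorem subqA : SUBQ := subq ewq (biw2 ewq) rxw ptq perr (dsq ewq)

theorem subnA (s M : ℕ) : SUBN s M := subn subqA s M

end Crest.Agent.N49.Su
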