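import Crest.Agent.N49.Su.Defs
import Crest.Agent.N49.Sw.Boxf
import Crest.Agent.N49.Sw.Cubf2
import Crest.Agent.N49.Sw.Msec
import Crest.Agent.N49.Sw.Prd
import Crest.Agent.N49.Sw.Star
import Crest.Agent.N49.Sw.Coln

/-!
# Row 49 (helper97): the core of the substitution step (glue)
-/

set_option autoImplicit false

open Matrix MvPolynomial Finset

noncomputable section

namespace Crest.Agent.N49.Su

open Po Tw Sd Sw TS

namespace Cr

theorem cj_mul {l : ℕ} (ω : Fin l → Bool) (a b : ℂ) : cj ω (a * b) = cj ω a * cj ω b := by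
  unfold cj; split_ifs <;> simp

theorem cj_prod {l : ℕ} (ω : Fin l → Bool) {ι : Type} [Fintype ι] (f : ι → ℂ) :
    cj ω (∏ i, f i) = ∏ i, cj ω (f i) := by
  unfold cj; split_ifs <;> simp

theorem cj_norm {l : ℕ} (ω : Fin l → Bool) (a : ℂ) : ‖cj ω a‖ = ‖a‖ := by
  unfold cj; split_ifs <;> simp

theorem rx_off {τ : Type} {V : TS τ} {p : V.C → Prop} [DecidablePred p] {y y' : V.C → ℝ} {B : ℝ}
    {G : (V.C → ℝ) → ℝ} (e : ∀ c, ¬ p c → y c = y' c) (h : Rx V p y B G) : Rx V p y' B G :=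
  let ⟨I, a, c⟩ := h
  ⟨I, a, fun ξ d => c ξ fun x k => (d x k).trans (e x k).symm⟩

theorem dk_lo {σ τ : Type} [DecidableEq τ] {col : τ → σ} {W : Finset (τ →₀ ℕ)}
    {κ : (τ →₀ ℕ) → ℝ} {N : ℕ} {b : ℝ} (h : (MR col W (dk κ)).Sz N b) {μ : τ →₀ ℕ} (k : μ ∈ W)
    (z : μ ≠ 0) : b ≤ κ μ := by
  have := h.lo (Pi.single ⟨μ, mem_erase.2 ⟨z, k⟩⟩ 1)
  rw [qf, mulVec_single_one, single_one_dotProduct, sum_eq_single ⟨μ, mem_erase.2 ⟨z, k⟩⟩
    (fun w _ e => by rw [Pi.single_eq_of_ne e]; simp) (by simp)] at this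
  have e : b * _ ≤ dk κ μ μ := this
  simpa [dk] using e

theorem ec_tw0 {σ τ : Type} [DecidableEq σ] (U : TS σ) (S : Sh σ τ) (g : (U.Cw S → ℤ) → ℂ) :
    (U.tw S (U.tw0 S)).Ec g = (U.sh S).Ec g :=
  congrArg (fun Φ => ((U.sh S).setΦ Φ).Ec g)
    (funext fun p => congrArg (S.cf _ p.1.2) (eval₂_tw0 _ _))

theorem eps0 {σ τ : Type} [DecidableEq τ] (col : τ → σ) (W : Finset (τ →₀ ℕ)) (K : Kn τ) :
    (MR col W K).ε = 0 := funext fun _ => sum_eq_zero fun _ _ => ite_self _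

theorem num {n s c c' : ℕ} : ((n + 1) ^ (s + 1) + 2) ^ c ≤ (n + 2) ^ ((s + 2) * (c + c') + 3 * s) ∧
    ((n + 1) ^ (s + 1) + 2) ^ c' ≤ (n + 2) ^ ((s + 2) * (c + c') + 3 * s) ∧
    (4 * n + 1) ^ s ≤ (n + 2) ^ ((s + 2) * (c + c') + 3 * s) := by
  have a : (n + 1) ^ (s + 1) + 2 ≤ (n + 2) ^ (s + 2) := by
    have := Nat.pow_le_pow_left (show n + 1 ≤ n + 2 by omega) (s + 1)
    have := Nat.pow_le_pow_left (show 2 ≤ n + 2 by omega) (s + 1)
    have := Nat.le_self_pow (show s + 1 ≠ 0 by omega) 2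
    rw [pow_succ (n + 2) (s + 1)]; nlinarith
  have b : ∀ j, j ≤ c + c' → ((n + 1) ^ (s + 1) + 2) ^ j ≤
      (n + 2) ^ ((s + 2) * (c + c') + 3 * s) := fun j k =>
    (Nat.pow_le_pow_left a j).trans (by
      rw [← pow_mul]
      exact Nat.pow_le_pow_right (by omega) ((Nat.mul_le_mul_left _ k).trans (by omega)))
  refine ⟨b _ (by omega), b _ (by omega), ?_⟩
  calc _ ≤ ((n + 2) ^ 3) ^ s := Nat.pow_le_pow_left (by ring_nf; omega) s
    _ ≤ _ := by rw [← pow_mul]; exact Nat.pow_le_pow_right (by omega) (by omega)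

end Cr

open Cr in
theorem corq (hE : EXQ) (hK : KILL) (hF : FIBQ) (hC : CBQ) (hW : WRD) (hD : KDG) (hA : ALG) :
    CORQ := fun s => by
  obtain ⟨c, hB⟩ := boxf (cubf2 msec) s
  obtain ⟨c', hU⟩ := cubf2 msec s
  refine ⟨(s + 2) * (c + c') + 3 * s, ?_⟩
  intro σ I κ C _ _ _ _ _ _ _ l n N M m q U st fm a b η κ0 κz g G o cσ cI cκ cm hN b0 ba hz a0 a1
    uo us η0 η1 hM hP hg hG e0 e1
  obtain ⟨n1, n2, n3⟩ := num (n := n) (s := s) (c := c) (c' := c')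
  set c0 := (s + 2) * (c + c') + 3 * s
  set m1 := (m * (n + 1) + 2) * 2 ^ l with hm1
  have one : (1 : ℝ) ≤ (n + 2) ^ c0 := one_le_pow₀ (by linarith [n.cast_nonneg (α := ℝ)])
  have ab : b ≤ a := (le_mul_of_one_le_left b0.le one).trans ba
  have b1 : b ≤ 1 := ab.trans (a0.trans a1)
  have ap : 0 < a := b0.trans_le ab
  obtain ⟨cb, hv⟩ := hC σ I κ l s n q a κ0 κz o cσ cI cκ cm ap (fun μ => (hz μ).1) a0
  have hb : ∀ j : ℕ, ((n + 1) ^ (s + 1) + 2) ^ j ≤ (n + 2) ^ c0 → ∀ _ : ℕ,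
      b ≤ b ∧ ((((n + 1) ^ (s + 1) : ℕ) : ℝ) + 2) ^ j * b ≤ a := fun j k _ =>
    ⟨le_rfl, (mul_le_mul_of_nonneg_right (by exact_mod_cast k) b0.le).trans ba⟩
  obtain ⟨u1, u2, u3, -⟩ := hU l σ _ κ q.bl _ a b _ _ _ _ _ _ (fun _ => b) cb b0 (hb _ n2)
  obtain ⟨w1, w2, -, w4, w5⟩ := hW σ I κ l s q o
  obtain ⟨d1, d2, d3⟩ := hD σ I κ l s q κ0 b κz o (fun μ => (hz μ).2) a1 b0.le b1
  -- the product
  let u : Option I → (σ →₀ ℕ) → ℝ := fun o => o.elim κz fun _ _ => κ0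
  let gg : ∀ i : Option I, (U.Cw (MR id q.W (dk (u i))) → ℤ) → ℂ := fun i =>
    match i with
    | none => g
    | some c => fun y => ee (eval (ex U (MR id q.W (dk fun _ => κ0)) fm (zc y)) (G c))
  have g1 : ∀ i y, ‖gg i y‖ ≤ 1 := fun i y => by
    cases i with
    | none => exact hg y
    | some c => exact (norm_ee _).le
  have pp := prd σ σ (Option I) U st M id (fun _ => q.W) u (vq κz κ0) gg uo us (fun _ => o.dn)
    (fun i j => by
      cases i with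
      | none => exact ap.trans_le (hz j).1
      | some c => exact ap.trans_le a0) hv g1
  have hm : ∀ {j k : ℕ}, j ≤ k → (1 : ℝ) / 2 ^ k ≤ 1 / 2 ^ j := fun e =>
    one_div_le_one_div_of_le (by positivity) (pow_le_pow_right₀ one_le_two e)
  have p1 : 1 / 2 ^ (m * (n + 1)) ≤ ‖(U.sh (MR (id ∘ Prod.snd) q.WQ (dk (vq κz κ0)))).Ec
      fun y => ∏ i, gg i (hs U _ (pr i) y)‖ := by
    rw [pp, norm_prod]
    calc _ ≤ (1 : ℝ) / 2 ^ (m * Fintype.card (Option I)) :=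
          hm (Nat.mul_le_mul_left _ (by rw [Fintype.card_option]; omega))
      _ = ∏ _i : Option I, (1 : ℝ) / 2 ^ m := by
          rw [prod_const, card_univ, div_pow, one_pow, ← pow_mul]
      _ ≤ _ := prod_le_prod (fun _ _ => by positivity) fun i _ => by
          cases i with
          | none => exact e0
          | some c => exact e1 c
  have hh : ∀ j : ℕ, (1 : ℝ) / 2 ^ (j + 1) + 1 / 2 ^ (j + 1) = 1 / 2 ^ j := fun j => by
    rw [pow_succ]; field_simp; norm_num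
  have l1 : m * (n + 1) + 2 ≤ m1 := Nat.le_mul_of_pos_right _ (by positivity)
  have η2 : η ≤ 1 / 2 ^ (m * (n + 1) + 2) := η1.trans (hm (by omega))
  obtain ⟨-, bx⟩ := hB l σ _ κ q.bl U st M _ N a b η (1 / 2 ^ (m * (n + 1) + 1)) _ _ _ _ _ _
    (fun _ => b) (U.tw0 _) (fun y => ∏ i, gg i (hs U _ (pr i) y)) cb b0 (hb _ n1) (n1.trans hN) us
    (us.adm cb.sz.toOk) η0 (η1.trans ((hm (j := 3) (by omega)).trans (by norm_num))) hM hP
    (fun y => by rw [norm_prod]; exact prod_le_one (fun _ _ => norm_nonneg _) fun i _ => g1 _ _)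
    (by positivity) (by
      rw [ec_tw0]
      refine le_trans ?_ p1
      have := hh (m * (n + 1))
      have := hh (m * (n + 1) + 1)
      linarith)
  have t0 : ts U (q.CQ s κz κ0 b) il (U.tw0 (MR (id ∘ Prod.snd) q.WQ (dk (vq κz κ0)))) =
      U.tw0 _ := tp_tw0 (by rw [eps0, eps0, mulVec_zero])
  rw [t0, ec_tw0, show ((1 : ℝ) / 2 ^ (m * (n + 1) + 1) / 2) ^ 2 ^ l = 1 / 2 ^ m1 by
    rw [hm1, pow_mul, div_div, ← pow_succ, div_pow, one_pow]] at bx
  -- kill the letters of the copies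
  have cd : Fintype.card ((σ ⊕ κ × Bool) ⊕ I) ≤ 4 * n := by
    simp only [Fintype.card_sum, Fintype.card_prod, Fintype.card_bool]; omega
  have cN : (Fintype.card ((σ ⊕ κ × Bool) ⊕ I) + 1) ^ s ≤ N :=
    (Nat.pow_le_pow_left (by omega) s).trans (n3.trans hN)
  obtain ⟨k1, k2, k3⟩ := hK σ _ _ U st M N s b η _ _ _ q.c1 (q.W1 s) (dk (q.k1 s κz κ0 b)) q.i1
    univ w1 (by rintro ((a | a) | a) <;> rfl) (((u1 l).1).mono (n2.trans hN) le_rfl) (u1 l).2
    (fun μ k => mem_full.1 (mem_filter.1 k).1) (fun a _ => u2 _)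
    (fun ν k ν' k' _ _ => (d1 ν ν').resolve_right (by simp [k, k'])) cN us hP
  let κ' : (σ ⊕ κ × Bool →₀ ℕ) → ℝ := fun μ => max b (q.k1 s κz κ0 b (μ.mapDomain .inl))
  obtain ⟨j1, j2, j3⟩ := hK σ _ _ U st M N s b η q.c1 (q.W1 s) (dk (q.k1 s κz κ0 b)) q.cl (q.W' s)
    (dk κ') .inl univ w2 (fun _ => rfl) k2 k1 (fun μ k => mem_full.1 (mem_filter.1 k).1)
    (fun a _ => w4 _) (fun ν k ν' _ z _ => by
      have := dk_lo k2 ((w2.mem ν).1 k).1 fun e => z (Finsupp.mapDomain_injective w2.inj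
        (e.trans Finsupp.mapDomain_zero.symm))
      simp only [dk, κ', max_eq_right this, (Finsupp.mapDomain_injective w2.inj).eq_iff])
    ((Nat.pow_le_pow_left (by rw [Fintype.card_sum (α := σ ⊕ κ × Bool)]; omega) s).trans cN) us hP
  refine ⟨κ', fun μ => ⟨le_max_left _ _, max_le b1 (d2 _)⟩, j1, j2, ?_⟩
  have x1 := fun R [AddCommMonoid R] => hE.2 σ _ _ C R U fm
    (Sum.elim (id ∘ Prod.snd) fun i : κ × Bool => q.kp i.1) (WXF q.bl s (q.Wt s) l) (KXF q.bl s (q.Wt s) (dk (vq κz κ0)) q.lam fun _ => b) q.c1 (q.W1 s) (dk (q.k1 s κz κ0 b)) q.i1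
    (by rintro ((a | a) | a) <;> rfl) w1.inj
  have hc : ∀ c t, q.c1 (q.ic c t) = q.cl t := fun c t => by
    unfold Gq.ic; split_ifs with e
    · rw [e]; rfl
    · rfl
  let Φ : (U.Cw (MR q.c1 (q.W1 s) (dk (q.k1 s κz κ0 b))) → ℤ) → ℂ := fun y =>
    ∏ ω : Fin l → Bool, cj ω (g (hs U _ (q.r0 ω) (rq U _ (MR q.cl (q.W' s) (dk κ')) .inl y)))
  have tr := fun {τ : Type} {S : Sh σ τ} (h : S.Ok) => sh_tri us.cl h
  have f0 := k3.Ec (tr (u1 l).1.toOk) (tr k2.toOk) (B := 1) (g := fun y => Φ y * ∏ c,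
    ee (eval (ex U (MR q.cl (q.We s (q.ec c)) (dk (q.kf κ0 b))) fm (zc (rq U _ _ (q.ic c) y)))
      (sbp q.r1 (q.We s (q.ec c)) (G c)))) fun y => by
    simp only [norm_mul, norm_prod, norm_ee, prod_const_one, mul_one, Φ, cj_norm]
    exact prod_le_one (fun _ _ => norm_nonneg _) fun i _ => hg _
  have f1 : (fun y => Φ (rq U (q.CQ s κz κ0 b) _ q.i1 y) * ∏ c,
      ee (eval (ex U (MR q.cl (q.We s (q.ec c)) (dk (q.kf κ0 b))) fm
        (zc (rq U _ _ (q.ic c) (rq U _ (MR q.c1 (q.W1 s) (dk (q.k1 s κz κ0 b))) q.i1 y))))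
      (sbp q.r1 (q.We s (q.ec c)) (G c)))) = fun y => ∏ ω : Fin l → Bool, cj ω (∏ i, gg i
        (hs U _ (pr i) (hs U (MR (id ∘ Prod.snd) q.WQ (dk (vq κz κ0))) (fwF q.bl q.lam ω) y))) := by
    funext y
    simp only [cj_prod, Fintype.prod_option, cj_mul, prod_mul_distrib]
    congr 1
    · refine prod_congr rfl fun ω _ => congrArg (fun z => cj ω (g z)) ?_
      rw [(x1 ℤ).2.2.2.2 _ q.cl _ _ _ y (fun _ => rfl) fun ν k => ((w2.mem ν).1 k).1]
      exact ((hA σ I κ C l s q U fm κ0 b κz _ _ y o u3).1 ω).symm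
    · rw [prod_comm]
      refine prod_congr rfl fun c _ => ?_
      rw [(x1 ℤ).2.2.2.2 _ _ _ _ _ y (hc c) fun ν k => (((w5 c).1.mem ν).1 k).1]
      exact ((hA σ I κ C l s q U fm κ0 b κz (dk fun _ => κ0) _ y o u3).2 c _ (hG c)).2.symm
  replace f0 := ((congrArg (fun z => ‖(U.sh (q.CQ s κz κ0 b)).Ec z - _‖) f1).symm.trans_le
    f0).trans_eq (one_mul η)
  have x2 := fun R [AddCommMonoid R] => hE.2 σ _ _ C R U fm q.c1 (q.W1 s)
    (dk (q.k1 s κz κ0 b)) q.cl (q.W' s) (dk κ') .inl (fun _ => rfl) w2.inj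
  have fb := hF σ _ _ I C U st M (m1 + 1) fm q.c1 (q.W1 s) (q.k1 s κz κ0 b) q.cl
    (fun c => q.We s (q.ec c)) (q.kf κ0 b) q.ic (fun c => q.Se (q.ec c)) (.inl q.x) Φ
    (fun c => sbp q.r1 (q.We s (q.ec c)) (G c)) uo us k1 k2.toOk (fun c => (w5 c).1) hc
    (fun c c' t _ e => by
      unfold Gq.ic at e
      rw [if_pos rfl] at e
      split_ifs at e
      · exact Sum.inr.inj e)
    (fun c => mem_insert_self _ _)
    (fun c μ k => by simpa only [Gq.ic, if_pos] using (w5 c).2 μ k) d3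
    (fun c => ((hA σ I κ C l s q U fm κ0 b κz (dk κz) (dk κ') 0 o u3).2 c _ (hG c)).1)
    (fun y => by
      simp only [norm_prod, Φ, cj_norm]
      exact prod_le_one (fun _ _ => norm_nonneg _) fun i _ => hg _)
    (fun y y' e => by
      have : rq U _ (MR q.cl (q.W' s) (dk κ')) .inl y = rq U _ _ .inl y' := funext fun p =>
        sum_congr rfl fun p' k => e p' fun c => by
          have : p'.1.2.1 = _ := (mem_filter.1 k).2.2
          rw [this, Gq.ic, if_pos rfl]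
          exact Finsupp.mapDomain_of_notMem_range _ _ (by simp)
      simp only [Φ, this])
    (by
      have a1 := (sub_le_iff_le_add'.1 ((norm_sub_norm_le _ _).trans f0))
      have a2 := hh m1
      have a3 := η1.trans (hm (j := m1 + 1) (by omega))
      exact le_of_add_le_add_right (a2.le.trans ((bx.trans a1).trans (add_le_add le_rfl a3))))
  have j4 : ∀ A, 1 / 2 ^ (m1 + 1 + 1) ≤ (U.sh (MR q.c1 (q.W1 s) (dk (q.k1 s κz κ0 b)))).P
      (rq U _ (MR q.cl (q.W' s) (dk κ')) .inl ⁻¹' A) →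
      1 / 2 ^ (m1 + 3) ≤ (U.sh (MR q.cl (q.W' s) (dk κ'))).P A := fun A k => by
    have a1 : (1 : ℝ) / 2 ^ (m1 + 3) + 1 / 2 ^ (m1 + 3) = 1 / 2 ^ (m1 + 1 + 1) := hh (m1 + 2)
    exact le_of_add_le_add_right (a1.le.trans (k.trans ((sub_le_iff_le_add'.1
      (abs_le.1 (j3.P A)).2).trans (add_le_add le_rfl η1))))
  refine j4 _ (fb.trans ((tr k2.toOk).P_mono fun y hy =>
    ⟨fun z => hy.1 (prod_eq_zero (mem_univ fun _ => false) (by rw [z]; simp [cj])),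
      fun c => rx_off (fun p k => ?_) (Sr.rx_cg (hy.2 c) ?_ fun _ => rfl)⟩))
  · rw [(x2 ℤ).2.2.2.2 _ q.cl _ _ id y (fun _ => rfl) fun ν k => by
      rw [Finsupp.mapDomain_id]; exact (mem_filter.1 k).1]
    refine congrArg Int.cast (congrArg (fun μ => ex U _ id y (p.1.1, μ)) ?_)
    refine Finsupp.mapDomain_congr fun t ht => if_neg fun e => ?_
    exact k (e ▸ Finsupp.mem_support_iff.1 ht)
  · have : #(q.W1 s) ≤ N := (card_filter_le _ _).trans ((Cn.card_full' _ _).trans cN)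
    have : (Fintype.card U.C : ℝ) * #(q.W1 s) ≤ Fintype.card U.C * N := by gcongr
    rw [hm1]
    push_cast; linarith

end Crest.Agent.N49.Su

end
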