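import Crest.Agent.N49.Sw.Fat
import Crest.Agent.N49.Sw.Df2

/-!
# Row 49 (helper97): the core of the substitution step (FROZEN definitions and leaves)
-/

set_option autoImplicit false

open Matrix MvPolynomial Finset

noncomputable section

namespace Crest.Agent.N49.Su

open Po Tw Sd Sw

/-- restriction along a renaming `ι` of the letters -/
def rq {σ τ τ' R : Type} [DecidableEq σ] [DecidableEq τ] [AddCommMonoid R] (U : TS σ) (S : Sh σ τ)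
    (S' : Sh σ τ') (ι : τ' → τ) (y : U.Cw S → R) : U.Cw S' → R :=
  fun p => ex U S id y (p.1.1, (S'.ty p.1.2).mapDomain ι)

/-- a substitution of forms: `eval z (sbp φ W P) = eval (sbv φ W z) P` -/
def sbp {C τ τ' : Type} [Fintype τ'] (φ : τ → τ' → ℤ) (W : Finset (τ →₀ ℕ))
    (P : MvPolynomial (VV C τ') ℝ) : MvPolynomial (VV C τ) ℝ :=
  aeval (fun v => ∑ μ ∈ W, (smat φ v.2 μ : ℝ) • X (v.1, μ)) P

/-- `W'` = the words of `W` in the letters `ι b`, `b ∈ S` -/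
structure Sub {τ τ' : Type} (ι : τ' → τ) (S : Finset τ') (W : Finset (τ →₀ ℕ))
    (W' : Finset (τ' →₀ ℕ)) : Prop where
  inj : Function.Injective ι
  mem : ∀ ν, ν ∈ W' ↔ ν.mapDomain ι ∈ W ∧ ν.support ⊆ S

/-- the geometry: marked letter, doubled letters with their blocks, words of the copies -/
structure Gq (σ I κ : Type) (l : ℕ) where
  x : σ
  kp : κ → σ
  bl : κ → Fin l
  ec : I → Fin l → κ
  W : Finset (σ →₀ ℕ)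
  mc : ℕ

namespace Gq

variable {σ I κ : Type} [Fintype σ] [DecidableEq σ] [Fintype I] [DecidableEq I] [Fintype κ]
  [DecidableEq κ] {l : ℕ} (q : Gq σ I κ l) (s : ℕ)

/-- the word of a section -/
def w (e : Fin l → κ) : σ →₀ ℕ := Finsupp.single q.x 1 + ∑ i, Finsupp.single (q.kp (e i)) 1

structure Ok : Prop where
  inj : Function.Injective q.kp
  x : ∀ k, q.kp k ≠ q.x
  ec : ∀ c i, q.bl (q.ec c i) = i
  dn : Dn q.W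
  one : ∀ a, Finsupp.single a 1 ∈ q.W
  dg : ∀ μ ∈ q.W, μ.degree ≤ s
  tv : ∀ k k', q.bl k = q.bl k' → Finsupp.single (q.kp k) 1 + Finsupp.single (q.kp k') 1 ∉ q.W
  xx : Finsupp.single q.x 1 + Finsupp.single q.x 1 ∉ q.W
  w : ∀ c, q.w (q.ec c) ∈ q.W

/-- the colours of the big alphabet -/
def cl : σ ⊕ κ × Bool → σ := Sum.elim id fun h => q.kp h.1
/-- its words -/
def W' : Finset (σ ⊕ κ × Bool →₀ ℕ) := (full _ s).filter fun μ => μ.mapDomain q.cl ∈ q.W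
/-- the vertices -/
def r0 (ω : Fin l → Bool) : σ ⊕ κ × Bool → σ → ℤ := Sum.elim (fun a => Pi.single a 1)
  fun h => if h.2 = ω (q.bl h.1) then Pi.single (q.kp h.1) q.mc else 0
/-- the letters of a section -/
def Se (e : Fin l → κ) : Finset (σ ⊕ κ × Bool) :=
  insert (.inl q.x) (univ.image fun h : Fin l × Bool => .inr (e h.1, h.2))
/-- its words -/
def We (e : Fin l → κ) : Finset (σ ⊕ κ × Bool →₀ ℕ) :=
  (q.W' s).filter fun μ => μ.support ⊆ q.Se e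
/-- the differences -/
def r1 : σ ⊕ κ × Bool → σ → ℤ := Sum.elim (fun a => Pi.single a 1)
  fun h => if h.2 then -Pi.single (q.kp h.1) 1 else Pi.single (q.kp h.1) 1
/-- the kernel on the fibres -/
def kf (κ0 b : ℝ) (μ : σ ⊕ κ × Bool →₀ ℕ) : ℝ :=
  if μ = Finsupp.single (.inl q.x) 1 then κ0 else b

/-- the words of the product -/
abbrev WQ : Finset (Option I × σ →₀ ℕ) := WP fun _ : Option I => q.W
omit [Fintype σ] [DecidableEq σ] [Fintype I] [Fintype κ] [DecidableEq κ] in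
/-- its kernel -/
def _root_.Crest.Agent.N49.Su.vq (κz : (σ →₀ ℕ) → ℝ) (κ0 : ℝ) (μ : Option I × σ →₀ ℕ) : ℝ :=
  if ∀ t ∈ μ.support, t.1 = none then κz (μ.mapDomain Prod.snd) else κ0
/-- the letter `k` acts on the copy `o` -/
def on (o : Option I) (k : κ) : Prop := ∀ c, o = some c → q.ec c (q.bl k) = k
instance (o : Option I) (k : κ) : Decidable (q.on o k) := by unfold on; infer_instance
/-- the directions of the cube -/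
def lam (k : κ) : Option I × σ → ℤ := fun t =>
  if t.2 = q.kp k ∧ q.on t.1 k then t.1.elim q.mc fun _ => 1 else 0
open Classical in
/-- the words of the cube before the doubling -/
def Wt : Finset ((Option I × σ) ⊕ κ →₀ ℕ) := (full _ s).filter fun μ =>
  μ.mapDomain (Sum.elim Prod.snd q.kp) ∈ q.W ∧
    ∃ o, ∀ t ∈ μ.support, (∀ p, t = .inl p → p.1 = o) ∧ ∀ k, t = .inr k → q.on o k
/-- the cube -/
abbrev CQ (κz : (σ →₀ ℕ) → ℝ) (κ0 b : ℝ) : Sh σ ((Option I × σ) ⊕ κ × Bool) :=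
  CXF q.bl s (id ∘ Prod.snd) (q.Wt s) (dk (vq κz κ0)) q.kp q.lam (fun _ => b) l
/-- the letters that are kept -/
def i1 : (σ ⊕ κ × Bool) ⊕ I → (Option I × σ) ⊕ κ × Bool :=
  Sum.elim (Sum.map (none, ·) id) fun c => .inl (some c, q.x)
/-- their words -/
def W1 : Finset ((σ ⊕ κ × Bool) ⊕ I →₀ ℕ) :=
  (full _ s).filter fun ν => ν.mapDomain q.i1 ∈ WXF q.bl s (q.Wt s) l
/-- their colours -/
def c1 : (σ ⊕ κ × Bool) ⊕ I → σ := Sum.elim q.cl fun _ => q.x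
/-- their kernel -/
def k1 (κz : (σ →₀ ℕ) → ℝ) (κ0 b : ℝ) (ν : (σ ⊕ κ × Bool) ⊕ I →₀ ℕ) : ℝ :=
  KXF q.bl s (q.Wt s) (dk (vq κz κ0)) q.lam (fun _ => b) (ν.mapDomain q.i1) (ν.mapDomain q.i1)
/-- the marked letter of the copy `c` -/
def ic (c : I) (t : σ ⊕ κ × Bool) : (σ ⊕ κ × Bool) ⊕ I := if t = .inl q.x then .inr c else .inl t

end Gq

/-- leaf: calculus of restrictions -/
def EXQ : Prop := (∀ (C τ τ' : Type) [Fintype τ'] (φ : τ → τ' → ℤ) (W : Finset (τ →₀ ℕ))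
    (P : MvPolynomial (VV C τ') ℝ) (z : VV C τ → ℝ), eval z (sbp φ W P) = eval (sbv φ W z) P) ∧
  ∀ (σ τ τ' C R : Type) [DecidableEq σ] [DecidableEq τ] [DecidableEq τ'] [DecidableEq C]
  [AddCommMonoid R] (U : TS σ) (fm : U.C → C) (col : τ → σ) (W : Finset (τ →₀ ℕ)) (K : Kn τ)
  (col' : τ' → σ) (W' : Finset (τ' →₀ ℕ)) (K' : Kn τ') (ι : τ' → τ), (∀ b, col (ι b) = col' b) →
  Function.Injective ι →
  (∀ (y : U.Cw (MR col W K) → R) (c : C), ∀ ν ∈ W', ex U (MR col' W' K') fm (rq U _ _ ι y) (c, ν) =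
    ex U (MR col W K) fm y (c, ν.mapDomain ι)) ∧
  (∀ (y : U.Cw (MR col W K) → R) (p' : U.Cw (MR col' W' K')) (p : U.Cw (MR col W K)),
    p.1.1 = p'.1.1 → p.1.2.1 = p'.1.2.1.mapDomain ι → rq U _ _ ι y p' = y p) ∧
  (∀ y : U.Cw (MR col W K) → ℤ, zc (rq U _ (MR col' W' K') ι y) = rq U _ _ ι (zc y)) ∧
  (U.Ok → Dn W → Dn W' → (∀ ν ∈ W', ν.mapDomain ι ∈ W) → ∀ (y : U.Cw (MR col W K) → ℝ)
    (p' : U.Cw (MR col' W' K')) (p : U.Cw (MR col W K)), p.1.1 = p'.1.1 →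
    p.1.2.1 = p'.1.2.1.mapDomain ι → (U.sh _).u (rq U _ _ ι y) p' = (U.sh _).u y p) ∧
  ∀ (τ'' : Type) [DecidableEq τ''] (col'' : τ'' → σ) (W'' : Finset (τ'' →₀ ℕ)) (K'' : Kn τ'')
    (ι' : τ'' → τ') (y : U.Cw (MR col W K) → R), (∀ b, col' (ι' b) = col'' b) →
    (∀ ν ∈ W'', ν.mapDomain ι' ∈ W') →
    rq U _ (MR col'' W'' K'') ι' (rq U _ (MR col' W' K') ι y) = rq U _ _ (ι ∘ ι') y

/-- leaf: killing letters -/
def KILL : Prop := ∀ (σ τ τ' : Type) [DecidableEq σ] [DecidableEq τ] [DecidableEq τ'] [Fintype τ]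
  [Fintype τ'] (U : TS σ) (st : U.C → ℕ) (M N s : ℕ) (b η : ℝ) (col : τ → σ)
  (W : Finset (τ →₀ ℕ)) (K : Kn τ) (col' : τ' → σ) (W' : Finset (τ' →₀ ℕ)) (K' : Kn τ')
  (ι : τ' → τ) (S : Finset τ'), Sub ι S W W' → (∀ b, col (ι b) = col' b) → (MR col W K).Sz N b →
  Dn W → (∀ μ ∈ W, μ.degree ≤ s) → (∀ a ∈ S, Finsupp.single (ι a) 1 ∈ W) →
  (∀ ν ∈ W', ∀ ν' ∈ W', ν ≠ 0 → ν' ≠ 0 → K' ν ν' = K (ν.mapDomain ι) (ν'.mapDomain ι)) →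
  (Fintype.card τ' + 1) ^ s ≤ N → U.Stg st M → U.HP st N b η →
  Dn W' ∧ (MR col' W' K').Sz N b ∧
    (U.sh (MR col W K)).Push (U.sh (MR col' W' K')) (rq U _ _ ι) η

/-- leaf: `FIBS` on monomial rings, the relations on the small rings -/
def FIBQ : Prop := ∀ (σ τ τ' I C : Type) [DecidableEq σ] [DecidableEq τ] [DecidableEq τ']
  [Fintype I] [DecidableEq C] (U : TS σ) (st : U.C → ℕ) (M m : ℕ) (fm : U.C → C) (col : τ → σ)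
  (W : Finset (τ →₀ ℕ)) (κ : (τ →₀ ℕ) → ℝ) (col' : τ' → σ) (W' : I → Finset (τ' →₀ ℕ))
  (κ' : (τ' →₀ ℕ) → ℝ) (ι : I → τ' → τ) (S : I → Finset τ') (x : τ')
  (Φ : (U.Cw (MR col W (dk κ)) → ℤ) → ℂ) (G : I → MvPolynomial (VV C τ') ℝ), U.Ok → U.Stg st M →
  Dn W → (MR col W (dk κ)).Ok → (∀ c, Sub (ι c) (S c) W (W' c)) →
  (∀ c b, col (ι c b) = col' b) → (∀ c c', ∀ b ∈ S c, ι c b = ι c' x → c = c') → (∀ c, x ∈ S c) →
  (∀ c, ∀ μ ∈ W, μ (ι c x) ≠ 0 → μ (ι c x) = 1 ∧ ∃ ν ∈ W' c, μ = ν.mapDomain (ι c)) →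
  (∀ c, ∀ ν ∈ W' c, ν x ≠ 0 → κ' ν = κ (ν.mapDomain (ι c))) →
  (∀ c, ∀ μ ∈ (G c).support, Finsupp.weight Prod.snd μ x = 1) → (∀ y, ‖Φ y‖ ≤ 1) →
  (∀ y y', (∀ p, (∀ c, p.1.2.1 (ι c x) = 0) → y p = y' p) → Φ y = Φ y') →
  1 / 2 ^ m ≤ ‖(U.sh _).Ec fun y => Φ y *
    ∏ c, ee (eval (ex U (MR col' (W' c) (dk κ')) fm (zc (rq U _ _ (ι c) y))) (G c))‖ →
  1 / 2 ^ (m + 1) ≤ (U.sh _).P {y | Φ y ≠ 0 ∧ ∀ c, Rx (U.sh (MR col' (W' c) (dk κ')))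
    (fun p => p.1.2.1 x ≠ 0) (zc (rq U _ _ (ι c) y)) (Fintype.card U.C * #W + m + 3)
    fun ξ => eval (ex U _ fm ξ) (G c)}

/-- leaf: the data of the cube -/
def CBQ : Prop := ∀ (σ I κ : Type) [Fintype σ] [DecidableEq σ] [Fintype I] [DecidableEq I]
  [Fintype κ] [DecidableEq κ] (l s n : ℕ) (q : Gq σ I κ l) (a κ0 : ℝ) (κz : (σ →₀ ℕ) → ℝ),
  q.Ok s → Fintype.card σ ≤ n → Fintype.card I ≤ n → Fintype.card κ ≤ n → q.mc ≤ n → 0 < a →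
  (∀ μ, a ≤ κz μ) → a ≤ κ0 → CbF q.bl s ((n + 1) ^ (s + 1)) a (id ∘ Prod.snd) q.WQ
    (dk (vq κz κ0)) q.kp (q.Wt s) q.lam ∧
  ∀ o : Option I, ∀ μ ∈ q.W, μ ≠ 0 →
    vq κz κ0 (μ.mapDomain (o, ·)) = o.elim κz (fun _ _ => κ0) μ

/-- leaf: the words that are kept -/
def WRD : Prop := ∀ (σ I κ : Type) [Fintype σ] [DecidableEq σ] [Fintype I] [DecidableEq I]
  [Fintype κ] [DecidableEq κ] (l s : ℕ) (q : Gq σ I κ l), q.Ok s →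
  Sub q.i1 univ (WXF q.bl s (q.Wt s) l) (q.W1 s) ∧ Sub Sum.inl univ (q.W1 s) (q.W' s) ∧
  (∀ e, Sub id (q.Se e) (q.W' s) (q.We s e)) ∧ (∀ t, Finsupp.single t 1 ∈ q.W1 s) ∧
  ∀ c, Sub (q.ic c) (q.Se (q.ec c)) (q.W1 s) (q.We s (q.ec c)) ∧
    ∀ μ ∈ q.W1 s, μ (.inr c) ≠ 0 → μ (.inr c) = 1 ∧
      ∃ ν ∈ q.We s (q.ec c), μ = ν.mapDomain (q.ic c)

/-- leaf: the kernel that is kept is diagonal -/
def KDG : Prop := ∀ (σ I κ : Type) [Fintype σ] [DecidableEq σ] [Fintype I] [DecidableEq I]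
  [Fintype κ] [DecidableEq κ] (l s : ℕ) (q : Gq σ I κ l) (κ0 b : ℝ) (κz : (σ →₀ ℕ) → ℝ),
  q.Ok s → (∀ μ, κz μ ≤ 1) → κ0 ≤ 1 → 0 ≤ b → b ≤ 1 →
  (∀ ν ν', dk (q.k1 s κz κ0 b) ν ν' = KXF q.bl s (q.Wt s) (dk (vq κz κ0)) q.lam (fun _ => b)
    (ν.mapDomain q.i1) (ν'.mapDomain q.i1) ∨ ν ∉ q.W1 s ∨ ν' ∉ q.W1 s) ∧
  (∀ ν, q.k1 s κz κ0 b ν ≤ 1) ∧ ∀ c, ∀ ν ∈ q.We s (q.ec c), ν (.inl q.x) ≠ 0 →
    q.kf κ0 b ν = q.k1 s κz κ0 b (ν.mapDomain (q.ic c))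

/-- leaf: the vertices of the first copy and the alternating sums of the other copies -/
def ALG : Prop := ∀ (σ I κ C : Type) [Fintype σ] [DecidableEq σ] [Fintype I] [DecidableEq I]
  [Fintype κ] [DecidableEq κ] [DecidableEq C] (l s : ℕ) (q : Gq σ I κ l) (U : TS σ)
  (fm : U.C → C) (κ0 b : ℝ) (κz : (σ →₀ ℕ) → ℝ) (K : Kn σ) (K' : Kn (σ ⊕ κ × Bool))
  (y : U.Cw (q.CQ s κz κ0 b) → ℤ), q.Ok s →
  (∀ ω, ∀ ν ∈ q.WQ, ∀ μ, smat (fwF q.bl q.lam ω) ν μ ≠ 0 → μ ∈ WXF q.bl s (q.Wt s) l) →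
  (∀ ω, hs U (MR id q.W K) (pr none)
      (hs U (MR (id ∘ Prod.snd) q.WQ (dk (vq κz κ0))) (fwF q.bl q.lam ω) y) =
    hs U (MR id q.W K) (q.r0 ω) (rq U _ (MR q.cl (q.W' s) K') (q.i1 ∘ .inl) y)) ∧
  ∀ (c : I) (G : MvPolynomial (VV C σ) ℝ), G.IsWeightedHomogeneous Prod.snd (q.w (q.ec c)) →
    (∀ μ ∈ (sbp q.r1 (q.We s (q.ec c)) G).support, Finsupp.weight Prod.snd μ (.inl q.x) = 1) ∧
    ∏ ω : Fin l → Bool, cj ω (ee (eval (ex U _ fm (zc (hs U (MR id q.W K) (pr (some c))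
      (hs U (MR (id ∘ Prod.snd) q.WQ (dk (vq κz κ0))) (fwF q.bl q.lam ω) y)))) G)) =
    ee (eval (ex U _ fm (zc (rq U _ (MR q.cl (q.We s (q.ec c)) K') (q.i1 ∘ q.ic c) y)))
      (sbp q.r1 (q.We s (q.ec c)) G))

/-- **the core**: biased forms are almost integral on the fibres over a dense set -/
def CORQ : Prop := ∀ s : ℕ, ∃ c0 : ℕ, ∀ (σ I κ C : Type) [Fintype σ] [DecidableEq σ] [Fintype I]
  [DecidableEq I] [Fintype κ] [DecidableEq κ] [DecidableEq C] (l n N M m : ℕ) (q : Gq σ I κ l)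
  (U : TS σ) (st : U.C → ℕ) (fm : U.C → C) (a b η κ0 : ℝ) (κz : (σ →₀ ℕ) → ℝ)
  (g : (U.Cw (MR id q.W (dk κz)) → ℤ) → ℂ) (G : I → MvPolynomial (VV C σ) ℝ), q.Ok s →
  Fintype.card σ ≤ n → Fintype.card I ≤ n → Fintype.card κ ≤ n → q.mc ≤ n →
  (n + 2) ^ c0 ≤ N → 0 < b →
  (n + 2) ^ c0 * b ≤ a → (∀ μ, a ≤ κz μ ∧ κz μ ≤ 1) → a ≤ κ0 → κ0 ≤ 1 → U.Ok → U.Stg st M →
  0 ≤ η → η ≤ 1 / 2 ^ ((m * (n + 1) + 2) * 2 ^ l + 3) → U.HM st N b η → U.HP st N b η →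
  (∀ y, ‖g y‖ ≤ 1) → (∀ c, (G c).IsWeightedHomogeneous Prod.snd (q.w (q.ec c))) →
  1 / 2 ^ m ≤ ‖(U.sh _).Ec g‖ → (∀ c, 1 / 2 ^ m ≤ bi U (MR id q.W (dk fun _ => κ0)) fm (G c)) →
  ∃ κ' : (σ ⊕ κ × Bool →₀ ℕ) → ℝ, (∀ μ, b ≤ κ' μ ∧ κ' μ ≤ 1) ∧ Dn (q.W' s) ∧
    (MR q.cl (q.W' s) (dk κ')).Sz N b ∧
    1 / 2 ^ ((m * (n + 1) + 2) * 2 ^ l + 3) ≤ (U.sh (MR q.cl (q.W' s) (dk κ'))).P
      {y | g (hs U _ (q.r0 fun _ => false) y) ≠ 0 ∧ ∀ c,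
        Rx (U.sh (MR q.cl (q.We s (q.ec c)) (dk (q.kf κ0 b)))) (fun p => p.1.2.1 (.inl q.x) ≠ 0)
          (zc (rq U _ _ id y)) (Fintype.card U.C * N + (m * (n + 1) + 2) * 2 ^ l + 4)
          fun ξ => eval (ex U _ fm ξ) (sbp q.r1 (q.We s (q.ec c)) (G c))}

end Crest.Agent.N49.Su

end
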