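import Crest.Agent.N49.Su.Defs
import Crest.Agent.N49.Sw.Df3
import Crest.Agent.N49.Sw.Fib
import Crest.Agent.N49.Sw.Fibs
import Crest.Agent.N49.Sw.Cwk
import Crest.Agent.N49.Tw.Sa

/-!
# Row 49 (helper64): fibre relations on monomial rings
-/

set_option autoImplicit false

open Matrix MvPolynomial Finset

noncomputable section

namespace Crest.Agent.N49.Su

open Po Tw Sd Sw

namespace F2

theorem rx_mono {τ : Type} {V : TS τ} {p : V.C → Prop} [DecidablePred p] {y : V.C → ℝ} {B B' : ℝ}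
    {G : (V.C → ℝ) → ℝ} (h : Rx V p y B G) (l : B ≤ B') : Rx V p y B' G :=
  h.imp fun _ k => ⟨k.1, fun ξ e => (k.2 ξ e).trans
    (mul_le_mul_of_nonneg_right l (Real.sqrt_nonneg _))⟩

variable {σ τ τ' C : Type} [DecidableEq σ] [DecidableEq τ] [DecidableEq τ'] [DecidableEq C]
  (U : TS σ) (fm : U.C → C)

theorem ex_fm (S : Sh σ τ) (ξ : U.Cw S → ℝ) (c : C) (μ : τ →₀ ℕ) :
    ex U S fm ξ (c, μ) = ∑ F with fm F = c, ex U S id ξ (F, μ) := by
  simp only [ex, sum_filter, id]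
  rw [← sum_congr rfl fun F _ => (sum_ite_irrel (fm F = c) univ _ _).trans
    (if_congr Iff.rfl rfl sum_const_zero), sum_comm]
  refine sum_congr rfl fun p _ => ?_
  rw [sum_eq_single p.1.1 (fun F _ n => by simp [n.symm]) (by simp)]
  by_cases a : fm p.1.1 = c <;> simp [a]

/-- a form on a small ring as a polynomial in the coordinates of the big ring -/
def lf (S : Sh σ τ) (W' : Finset (τ' →₀ ℕ)) (g : τ' → τ) (G : MvPolynomial (VV C τ') ℝ) :
    MvPolynomial (U.Cw S) ℝ := aeval (fun v : VV C τ' => if v.2 ∈ W' then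
  ∑ p : U.Cw S with fm p.1.1 = v.1 ∧ S.ty p.1.2 = v.2.mapDomain g, X p else 0) G

theorem ev_lf (S : Sh σ τ) {col' : τ' → σ} {W' : Finset (τ' →₀ ℕ)} {K' : Kn τ'} (g : τ' → τ)
    (G : MvPolynomial (VV C τ') ℝ) {ξ : U.Cw S → ℝ} {ξ' : U.Cw (MR col' W' K') → ℝ}
    (h : ∀ F, ∀ μ ∈ W', ex U _ id ξ' (F, μ) = ex U S id ξ (F, μ.mapDomain g)) :
    eval ξ (lf U fm S W' g G) = eval (ex U _ fm ξ') G := by
  refine (comp_aeval_apply (φ := aeval ξ) _ G).trans (congrArg (eval · G) (funext fun v => ?_))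
  obtain ⟨c, ν⟩ := v
  by_cases m : ν ∈ W'
  · rw [if_pos m, map_sum, ex_fm, sum_congr rfl fun F _ => h F ν m, ← ex_fm]
    exact sum_congr rfl fun p _ => aeval_X _ _
  · rw [if_neg m, map_zero]
    refine (sum_eq_zero fun p k => absurd ?_ m).symm
    have e : p.1.2.1 = ν := (mem_filter.1 k).2.2
    exact e ▸ Sh.MW.mem p.1.2

theorem hom_lf (S : Sh σ τ) (W' : Finset (τ' →₀ ℕ)) (g : τ' → τ) {G : MvPolynomial (VV C τ') ℝ}
    (t : τ) {w : VV C τ' → ℕ} {n : ℕ} (h : G.IsWeightedHomogeneous w n)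
    (e : ∀ v, v.2 ∈ W' → v.2.mapDomain g t = w v) :
    ∀ μ ∈ (lf U fm S W' g G).support, Finsupp.weight (U.sh S).deg μ t = n := fun μ k => by
  have : (lf U fm S W' g G).IsWeightedHomogeneous (fun p => S.ty p.1.2 t) n := by
    refine Cw.hom_aeval (AddMonoidHom.id ℕ) h fun v _ => ?_
    split_ifs with m
    · refine IsWeightedHomogeneous.sum _ _ _ fun p k => ?_
      have := isWeightedHomogeneous_X ℝ (fun p : U.Cw S => S.ty p.1.2 t) p
      rwa [(mem_filter.1 k).2.2, e v m] at this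
    · exact isWeightedHomogeneous_zero _ _ _
  rw [← this (mem_support_iff.1 k), Finsupp.weight_apply, Finsupp.weight_apply, Finsupp.sum,
    Finsupp.sum, Finsupp.finsetSum_apply]
  rfl

end F2

open F2 in
/-- **FIBQ** -/
theorem fibq2 (hE : EXQ) (hR : RTR) : FIBQ := by
  intro σ τ τ' I C _ _ _ _ _ U st M m fm col W κ col' W' κ' ι S x Φ G hU hS dn o sb hc hx _ h1 hk hG
    hΦ hΦ' h
  have e1 : ∀ c y F, ∀ μ ∈ W' c, ex U (MR col' (W' c) (dk κ')) id (zc (rq U _ _ (ι c) y)) (F, μ) =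
      ex U (MR col W (dk κ)) id (zc y) (F, μ.mapDomain (ι c)) := fun c y F μ k => by
    obtain ⟨-, -, a, -⟩ := hE.2 σ τ τ' U.C ℤ U id col W (dk κ) col' (W' c) (dk κ') (ι c) (hc c)
      (sb c).inj
    rw [a]
    exact (hE.2 σ τ τ' U.C ℝ U id col W (dk κ) col' (W' c) (dk κ') (ι c) (hc c) (sb c).inj).1 _ _ _ k
  have e2 : ∀ c j, ∀ ν ∈ W' c, ν.mapDomain (ι c) (ι j x) ≠ 0 → c = j := fun c j ν k z => by
    classical
    obtain ⟨b, hb, e⟩ := mem_image.1 (Finsupp.mapDomain_support (Finsupp.mem_support_iff.2 z))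
    exact hx c j b (((sb c).mem ν).1 k |>.2 hb) e
  have dn' : ∀ c, Dn (W' c) := fun c μ k ν l => ((sb c).mem ν).2
    ⟨dn _ (((sb c).mem μ).1 k).1 _ (Finsupp.mapDomain_mono l),
      (Finsupp.support_mono l).trans (((sb c).mem μ).1 k).2⟩
  have v : (U.sh (MR col W (dk κ))).Ok := TS.sh_ok hS.cl o (fun _ _ => Sh.mono_r_ne)
    (funext fun _ => sum_eq_zero fun _ _ => ite_self _)
  have := fibs fib τ I (U.sh (MR col W (dk κ))) (fun c => ι c x) m Φ
    (fun c => lf U fm (MR col W (dk κ)) (W' c) (ι c) (G c)) v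
    (fun p i => by
      by_cases z : p.1.2.1 (ι i x) = 0
      exacts [z.le.trans zero_le_one, (h1 i _ (Sh.MW.mem p.1.2) z).1.le])
    (fun p i j a b => by
      obtain ⟨-, ν, k, e⟩ := h1 i _ (Sh.MW.mem p.1.2) a
      exact e2 i j ν k (e ▸ b))
    (fun p p' i z => congrArg (fun μ : τ →₀ ℕ => μ (ι i x))
      (of_not_not fun n => right_ne_zero_of_mul z (if_neg n)))
    (fun i μ k => ⟨hom_lf U fm _ _ _ _ (w := fun v => v.2 x) (fun ν z => by
        rw [← hG i ν (mem_support_iff.2 z), Finsupp.weight_apply, Finsupp.weight_apply, Finsupp.sum,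
          Finsupp.sum, Finsupp.finsetSum_apply]
        rfl) (fun v _ => Finsupp.mapDomain_apply (sb i).inj _ _) μ k,
      fun j n => hom_lf U fm _ _ _ _ (w := fun _ => 0) (fun ν _ => by simp [Finsupp.weight_apply])
        (fun v k => of_not_not fun z => n (e2 i j _ k z).symm) μ k⟩) hΦ hΦ'
    (h.trans_eq (congrArg (fun f => ‖TS.Ec _ f‖) (funext fun y => congrArg _
      (prod_congr rfl fun c _ => congrArg _ (ev_lf U fm _ _ _ (e1 c y)).symm))))
  refine this.trans (v.toTri.P_mono fun y k => ⟨k.1, fun c => rx_mono (hR σ τ τ' U col W κ col'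
    (W' c) κ' (ι c) x _ (zc y) _ _ _ hU (sb c).inj (hc c) dn (dn' c)
    (fun μ k => ⟨(((sb c).mem μ).1 k).1, fun z => (hk c μ k z).symm⟩)
    (fun μ k z => (h1 c μ k z).2.imp fun _ a => ⟨a.1, a.2.symm⟩) (fun F μ k _ => e1 c y F μ k)
    (fun ξ ξ' e => ev_lf U fm _ _ _ e) (k.2 c)) ?_⟩)
  have : Fintype.card (U.Cw (MR col W (dk κ))) ≤ Fintype.card U.C * #W := by
    refine (Fintype.card_subtype_le _).trans ?_
    rw [Fintype.card_prod]
    exact Nat.mul_le_mul_left _ ((Fintype.card_coe _).trans_le card_erase_le)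
  have : (Fintype.card (U.Cw (MR col W (dk κ))) : ℝ) ≤ Fintype.card U.C * #W := by
    exact_mod_cast this
  exact add_le_add (add_le_add this le_rfl) le_rfl

end Crest.Agent.N49.Su

end
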